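import Vale.Agent.P277Z.Hl.Defs
import Vale.Agent.P267.H338.Riem

/-!
# P277Z, block HIRL: descent of holomorphic functions, topology of a modification
-/

set_option linter.all false

open scoped Manifold ContDiff Topology
open Set Filter
open Vale.Agent.P272.K (Cm Chart At)

noncomputable section

namespace Vale.Agent.P277Z.Hl

open Lo

namespace Ds

variable {n : ℕ} {Y W : Type} [TopologicalSpace Y] [ChartedSpace (Cm n) Y] [TopologicalSpace W]
  [ChartedSpace (Cm n) W] {π : Y → W} {O Z : Set W}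

/-- the Riemann extension theorem on a manifold -/
theorem riem [IsManifold 𝓘(ℂ, Cm n) ω W] {τ f : W → ℂ} {x : W} {C : ℝ} (hτ : Hol n τ x)
    (h0 : Nz τ x) (hf : ∀ᶠ w in 𝓝 x, τ w ≠ 0 → Hol n f w ∧ ‖f w‖ ≤ C) :
    ∃ b, Hol n b x ∧ ∀ᶠ w in 𝓝 x, τ w ≠ 0 → b w = f w := by
  have he := at_chartAt (n := n) x
  set e := chartAt (Cm n) x
  have h1 : ∀ᶠ z in 𝓝 (e x), z ∈ e.target := e.open_target.mem_nhds (e.map_source he.2)
  obtain ⟨V, hB, hV, hxV⟩ := eventually_nhds_iff.1 ((hτ e he).eventually_analyticAt.and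
    (h1.and ((ev_chart he).2 hf)))
  obtain ⟨V', hV', hx', -, U, hU, e'⟩ := P267.H338.riemann_extension
    (g := fun z => τ (e.symm z)) (u := fun z => f (e.symm z)) (C := C) hV hxV
    (fun z hz => (hB z hz).1.differentiableAt.differentiableWithinAt)
    (fun k => h0 (((ev_chart he (p := fun w => ¬ τ w ≠ 0)).1 k).mono fun _ => not_not.1))
    (fun z hz => by
      obtain ⟨-, a, b⟩ := hB z hz.1
      have := (b hz.2).1 e ⟨he.1, e.map_target a⟩
      rw [e.right_inv a] at this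
      exact this.differentiableAt.differentiableWithinAt)
    fun z hz a => ((hB z hz).2.2 a).2
  refine ⟨fun w => U (e w), Hol.of_chart he
    ((P268.analyticAt_of_differentiableOn hV' hU hx').congr ?_), ?_⟩
  · filter_upwards [h1] with z hz
    rw [e.right_inv hz]
  · filter_upwards [(e.continuousAt he.2).eventually (hV'.mem_nhds hx'),
      e.open_source.mem_nhds he.2] with w h2 h3 h4
    have := e' _ h2 (by rwa [e.left_inv h3])
    rwa [e.left_inv h3] at this

theorem tube [T2Space W] (h : Bl n π O Z) {x : W} (hx : x ∈ O) {p : Y → Prop}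
    (hp : ∀ y, π y = x → ∀ᶠ z in 𝓝 y, p z) : ∀ᶠ w in 𝓝 x, ∀ y, π y = w → p y := by
  have := ChartedSpace.locallyCompactSpace (Cm n) W
  obtain ⟨L, h1, h2, h3⟩ := local_compact_nhds (h.isOpen.mem_nhds hx)
  have h4 := (((h.proper L h2 h3).diff (isOpen_interior (s := {z | p z}))).image h.cont).isClosed
  have h5 : x ∉ π '' (π ⁻¹' L \ interior {z | p z}) := by
    rintro ⟨y, hy, e⟩
    exact hy.2 (mem_interior_iff_mem_nhds.2 (hp y e))
  filter_upwards [h1, h4.isOpen_compl.mem_nhds h5] with w h6 h7 y e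
  by_contra hc
  exact h7 ⟨y, ⟨show π y ∈ L from e ▸ h6, fun k => hc (interior_subset k)⟩, e⟩

theorem tend (h : Bl n π O Z) (y : Y) : Tendsto π (gen {y}) (gen {π y}) := by
  intro T hT
  refine gen_of_freq (p := fun z => π z ∈ T) ?_
  filter_upwards [((h.cont.tendsto y).eventually
    (gen_near (p := fun w => w ∈ T) hT)).eventually_nhds] with y' h1
  rw [← frequently_frequently_nhds]
  refine ((mem_closure_iff_frequently.1 (h.dense y')).and_eventually h1).mono ?_
  rintro y'' ⟨h2, h3⟩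
  obtain ⟨σ, h4, h5, h6, -⟩ := h.sec y'' h2
  have h7 : Tendsto σ (𝓝 (π y'')) (𝓝 y'') := by
    have := h4.tendsto
    rwa [h5] at this
  refine h7.frequently (((gen_freq h3).and_eventually h6).mono fun w hw => ?_)
  refine (h.cont.tendsto (σ w)).eventually (p := fun w => w ∈ T) ?_
  rw [hw.2]
  exact hw.1

theorem onto [T2Space W] (h : Bl n π O Z) {x : W} (hx : x ∈ O) (hZ : Thin n Z x) :
    ∃ y, π y = x := by
  by_contra hc
  obtain ⟨τ, -, h1, h2⟩ := hZ
  refine h1 ?_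
  filter_upwards [tube h hx (p := fun _ => False) fun y e => (hc ⟨y, e⟩).elim, h2,
    h.isOpen.mem_nhds hx] with w h3 h4 h5
  by_contra h6
  obtain ⟨y, e⟩ := h.surj w h5 fun k => h6 (h4 k)
  exact h3 y e

variable [IsManifold 𝓘(ℂ, Cm n) ω Y] [IsManifold 𝓘(ℂ, Cm n) ω W] [T2Space W]

theorem desc (h : Bl n π O Z) {x : W} (hx : x ∈ O) (hZ : Thin n Z x) {β : Y → ℂ}
    (hβ : ∀ y, π y = x → Hol n β y) :
    ∃ b, Hol n b x ∧ ∀ᶠ w in 𝓝 x, ∀ y, π y = w → β y = b w := by
  classical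
  obtain ⟨τ, h1, h2, h3⟩ := hZ
  let f : W → ℂ := fun w => if k : ∃ y, π y = w then β k.choose else 0
  have hf : ∀ y, π y ∉ Z → f (π y) = β y := fun y hy => by
    have k : ∃ y', π y' = π y := ⟨y, rfl⟩
    simp only [f, dif_pos k]
    rw [h.one y _ hy k.choose_spec]
  obtain ⟨C, hC⟩ := (h.proper {x} (singleton_subset_iff.2 hx)
    isCompact_singleton).exists_bound_of_continuousOn (f := β)
    fun y hy => (hol_cont (hβ y hy)).continuousWithinAt
  have h4 := tube h hx (p := fun z => Hol n β z ∧ ‖β z‖ < C + 1) fun y e =>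
    (hβ y e).near.and ((hol_cont (hβ y e)).norm.eventually_lt continuousAt_const
      ((hC y e).trans_lt (lt_add_one C)))
  obtain ⟨b, h5, h6⟩ := riem (f := f) (C := C + 1) h1 h2 (by
    filter_upwards [h3, h4, h.isOpen.mem_nhds hx] with w k1 k2 k3 k4
    have k5 : w ∉ Z := fun k => k4 (k1 k)
    obtain ⟨y, rfl⟩ := h.surj w k3 k5
    obtain ⟨σ, -, -, k6, k7⟩ := h.sec y k5
    refine ⟨(k7 β (k2 y rfl).1).congr ?_, hf y k5 ▸ (k2 y rfl).2.le⟩
    filter_upwards [k6, h.closed.isOpen_compl.mem_nhds k5] with w k8 k9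
    rw [← hf (σ w) (by rwa [k8]), k8])
  refine ⟨b, h5, ?_⟩
  filter_upwards [h4, h5.near, gen_near (hol_gen_ne h1 h2), h3.eventually_nhds,
    h6.eventually_nhds] with w k1 k2 k3 k4 k5 y e
  subst e
  refine eq_of_gen (b := fun z => b (π z)) (hol_cont (k1 y rfl).1)
    ((hol_cont k2).comp h.cont.continuousAt) ?_
  filter_upwards [(tend h y).eventually (k3.and (gen_of_nhds (k4.and k5)))] with z ⟨a1, a2, a3⟩
  rw [a3 a1, hf z fun k => a1 (a2 k)]

theorem conn [T2Space Y] (h : Bl n π O Z) {F : Set W} (hF : F ⊆ O) (hc : IsCompact F)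
    (hn : IsPreconnected F) (hZ : ∀ x ∈ F, Thin n Z x) : IsPreconnected (π ⁻¹' F) := by
  classical
  have hK := h.proper F hF hc
  rw [isPreconnected_iff_subset_of_fully_disjoint_closed hK.isClosed]
  intro u v hu hv huv hd
  obtain ⟨U, V, hU, hV, h1, h2, h3⟩ := SeparatedNhds.of_isCompact_isCompact (hK.inter_right hu)
    (hK.inter_right hv) (hd.mono inter_subset_right inter_subset_right)
  have h4 : Disjoint (π '' (π ⁻¹' F ∩ u)) (π '' (π ⁻¹' F ∩ v)) := by
    rw [Set.disjoint_left]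
    rintro x ⟨y, hy, rfl⟩ ⟨y', hy', e⟩
    obtain ⟨b, -, h5⟩ := desc h (hF hy.1) (hZ _ hy.1) (β := fun z => if z ∈ U then 1 else 0) (by
      intro z hz
      have hz' : z ∈ π ⁻¹' F := show π z ∈ F from hz ▸ hy.1
      rcases huv hz' with k | k
      · refine (hol_const 1).congr ?_
        filter_upwards [hU.mem_nhds (h1 ⟨hz', k⟩)] with w hw using (if_pos hw).symm
      · refine (hol_const 0).congr ?_
        filter_upwards [hV.mem_nhds (h2 ⟨hz', k⟩)] with w hw
          using (if_neg (Set.disjoint_right.1 h3 hw)).symm)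
    have h6 := (h5.self_of_nhds y rfl).trans (h5.self_of_nhds y' e).symm
    rw [if_pos (h1 hy), if_neg (Set.disjoint_right.1 h3 (h2 hy'))] at h6
    exact one_ne_zero h6
  have h5 := (isPreconnected_iff_subset_of_fully_disjoint_closed hc.isClosed).1 hn _ _
    ((hK.inter_right hu).image h.cont).isClosed ((hK.inter_right hv).image h.cont).isClosed
    (fun x hx => by
      obtain ⟨y, rfl⟩ := onto h (hF hx) (hZ x hx)
      exact (huv hx).imp (fun k => ⟨y, ⟨hx, k⟩, rfl⟩) fun k => ⟨y, ⟨hx, k⟩, rfl⟩) h4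
  refine h5.imp (fun k y hy => (huv hy).resolve_right fun k' => ?_)
    fun k y hy => (huv hy).resolve_left fun k' => ?_
  · exact Set.disjoint_left.1 h4 (k hy) ⟨y, ⟨hy, k'⟩, rfl⟩
  · exact Set.disjoint_left.1 h4 ⟨y, ⟨hy, k'⟩, rfl⟩ (k hy)

end Ds

theorem desc : DESC := fun _ _ _ _ _ _ _ _ _ _ _ _ _ _ h _ hx hZ _ hβ => Ds.desc h hx hZ hβ

theorem top : TOP := by
  intro n Y W _ _ _ _ _ _ _ _ π O Z h
  refine ⟨Ds.tend h, fun x hx p hp => Ds.tube h hx hp, fun F hF hc hn hZ => ⟨⟨?_,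
    Ds.conn h hF hc hn.isPreconnected hZ⟩, image_preimage_eq_of_subset fun x hx => ?_⟩⟩
  · obtain ⟨x, hx⟩ := hn.nonempty
    obtain ⟨y, rfl⟩ := Ds.onto h (hF hx) (hZ x hx)
    exact ⟨y, hx⟩
  · exact Ds.onto h (hF hx) (hZ x hx)

end Vale.Agent.P277Z.Hl
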