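import Vale.Agent.P277Z.Hl.Defs
import Vale.Agent.P277Z.Pos.Rb

/-!
# P277Z, block HIRL: the modification is projective
-/

set_option linter.all false

open scoped Manifold ContDiff Topology ComplexOrder
open Set Filter
open Vale.Agent.P272.K (Cm Chart At cHess cHess_congr cHess_log_norm_sq)
open Vale.Agent.P285.H281.FD (Bd)
open Vale.Agent.P284Z (Psh levi cHess_quad psh_of_levi)
open Vale.Agent.P284Y.Lib (levi_hol levi_sub levi_const_mul levi_congr exists_levi_bound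
  gsq_nonneg two_le_inf)
open Vale.Agent.P277Z.Pos (SPshAt FlatAt nsq rb)

noncomputable section

namespace Vale.Agent.P277Z.Hl

open Lo

namespace PosbH

theorem exists_q {r : ℕ} (c : Fin r → ℚ) (hc : ∀ l, 0 < c l) :
    ∃ q : ℕ, 0 < q ∧ ∃ m : Fin r → ℕ, ∀ l, (m l : ℝ) = q * c l := by
  refine ⟨∏ l, (c l).den, Finset.prod_pos fun l _ => (c l).den_pos, ?_⟩
  have h : ∀ l, ∃ m : ℕ, (m : ℝ) = (∏ l, (c l).den : ℕ) * c l := fun l => by
    obtain ⟨s, hs⟩ := Finset.dvd_prod_of_mem (fun l => (c l).den) (Finset.mem_univ l)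
    refine ⟨s * (c l).num.toNat, ?_⟩
    have h1 : (((c l).num.toNat : ℕ) : ℚ) = c l * (c l).den := by
      rw [Rat.mul_den_eq_num, ← Int.cast_natCast, Int.toNat_of_nonneg (Rat.num_pos.2 (hc l)).le]
    have h2 : (((c l).num.toNat : ℕ) : ℝ) = c l * (c l).den := by exact_mod_cast h1
    rw [hs]
    push_cast
    rw [h2]
    ring
  exact ⟨fun l => (h l).choose, fun l => (h l).choose_spec⟩

theorem levi_pos {n : ℕ} {u : Cm n → ℝ} {z w : Cm n} (hu : ContDiffAt ℝ 2 u z)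
    (h : (cHess u z).PosDef) (hw : w ≠ 0) : 0 < levi u z w := by
  have := h.dotProduct_mulVec_pos (star_ne_zero.2 hw)
  rw [cHess_quad hu, star_star, Complex.zero_lt_real] at this
  linarith

variable {n : ℕ} {Y W : Type} [TopologicalSpace Y] [ChartedSpace (Cm n) Y] [TopologicalSpace W]
  [ChartedSpace (Cm n) W]

theorem sp_cont {u : Y → ℝ} {y : Y} (h : SPshAt n u y) : ContinuousAt u y := by
  obtain ⟨e, he, δ, _, N, hN, h1, _⟩ := h
  refine ((h1.continuousAt hN).comp (e.continuousAt he.2)).congr ?_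
  filter_upwards [e.open_source.mem_nhds he.2] with x hx
  simp [e.left_inv hx]

theorem flat_of {u : Y → ℝ} {F : Y → ℂ} {y : Y} (hF : Hol n F y) (h0 : F y ≠ 0)
    (h : ∀ᶠ x in 𝓝 y, u x = Real.log (‖F x‖ ^ 2)) : FlatAt n u y := fun e he => by
  have h1 : (fun z => u (e.symm z)) =ᶠ[𝓝 (e y)] fun z => Real.log (‖F (e.symm z)‖ ^ 2) :=
    (ev_chart he).2 h
  have h2 : F (e.symm (e y)) ≠ 0 := by rwa [e.left_inv he.2]
  refine ⟨ContDiffAt.congr_of_eventuallyEq ?_ h1, ?_⟩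
  · exact (((hF e he).restrictScalars (𝕜 := ℝ)).contDiffAt.norm_sq ℝ).log
      (pow_ne_zero 2 (norm_ne_zero_iff.2 h2))
  · rw [cHess_congr h1]
    exact cHess_log_norm_sq (hF e he).contDiffAt h2

variable [IsManifold 𝓘(ℂ, Cm n) ω W]

theorem hol_crd {x : W} {e : Chart n W} (he : At e x) (i : Fin n) : Hol n (fun w => e w i) x := by
  refine Hol.of_chart he
    (((ContinuousLinearMap.proj (R := ℂ) (φ := fun _ : Fin n => ℂ) i).analyticAt _).congr ?_)
  filter_upwards [e.open_target.mem_nhds (e.map_source he.2)] with z hz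
  simp [e.right_inv hz]

/-- a large multiple of a strictly plurisubharmonic function dominates -/
theorem big {π : Y → W} (hπ : Continuous π)
    (hh : ∀ y g, Hol n g (π y) → Hol n (fun z => g (π z)) y) {y : Y} {e : Chart n Y} (he : At e y)
    {ψ : W → ℝ} (hψ : ∀ᶠ x in 𝓝 (π y), Spsh n ψ x) {m : ℕ} {g : Fin m → W → ℂ}
    (hg : ∀ j, Hol n (g j) (π y)) {q : ℝ} (hq : 0 ≤ q) :
    ∃ k₀ : ℕ, ∀ᶠ z in 𝓝 (e y), ∀ k : ℕ, k₀ ≤ k →
      ContDiffAt ℝ 2 (fun z => k * ψ (π (e.symm z)) - q * ∑ j, ‖g j (π (e.symm z))‖ ^ 2) z ∧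
      ∀ w, 0 ≤ levi (fun z => k * ψ (π (e.symm z)) - q * ∑ j, ‖g j (π (e.symm z))‖ ^ 2) z w := by
  have hc := at_chartAt (n := n) (π y)
  set c := chartAt (Cm n) (π y)
  have h1 : ∀ᶠ t in 𝓝 (c (π y)), (ContDiffAt ℝ 2 (fun t => ψ (c.symm t)) t ∧
      ∀ w, w ≠ 0 → 0 < levi (fun t => ψ (c.symm t)) t w) ∧
      ContDiffAt ℝ 2 (fun t => ∑ j, ‖g j (c.symm t)‖ ^ 2) t := by
    filter_upwards [(ev_chart hc).2 hψ, c.open_target.mem_nhds (c.map_source hc.2),
      eventually_all.2 fun j => (hg j c hc).eventually_analyticAt] with t a1 a2 a3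
    have a4 := a1 c ⟨hc.1, c.map_target a2⟩
    rw [c.right_inv a2] at a4
    exact ⟨⟨a4.1.of_le two_le_inf, fun w hw => levi_pos (a4.1.of_le two_le_inf) a4.2 hw⟩,
      ContDiffAt.sum fun j _ => ((a3 j).restrictScalars (𝕜 := ℝ)).contDiffAt.norm_sq ℝ⟩
  obtain ⟨K, k1, k2, k3⟩ := local_compact_nhds h1
  obtain ⟨M, hM0, hM⟩ := exists_levi_bound k3 (fun t ht => (k2 ht).1) fun t ht => (k2 ht).2
  have hτ : AnalyticAt ℂ (fun z => c (π (e.symm z))) (e y) :=
    analyticAt_pi_iff.2 fun i => hh y _ (hol_crd hc i) e he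
  have h2 : Tendsto (fun z => π (e.symm z)) (𝓝 (e y)) (𝓝 (π y)) :=
    (hπ.tendsto y).comp (tendsto_symm he)
  refine ⟨⌈q * M⌉₊, ?_⟩
  filter_upwards [hτ.eventually_analyticAt, h2.eventually ((c.continuousAt hc.2).eventually k1),
    (h2.eventually (c.open_source.mem_nhds hc.2)).eventually_nhds] with z a1 a2 a3 k hk
  have b1 : ContDiffAt ℝ 2 (fun t => k * ψ (c.symm t)) (c (π (e.symm z))) :=
    contDiffAt_const.mul (k2 a2).1.1
  have b2 : ContDiffAt ℝ 2 (fun t => q * ∑ j, ‖g j (c.symm t)‖ ^ 2) (c (π (e.symm z))) :=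
    contDiffAt_const.mul (k2 a2).2
  have b3 : (fun z => k * ψ (π (e.symm z)) - q * ∑ j, ‖g j (π (e.symm z))‖ ^ 2) =ᶠ[𝓝 z]
      fun z => (fun t => k * ψ (c.symm t) - q * ∑ j, ‖g j (c.symm t)‖ ^ 2) (c (π (e.symm z))) :=
    a3.mono fun z hz => by simp only [c.left_inv hz]
  refine ⟨ContDiffAt.congr_of_eventuallyEq (ContDiffAt.comp (f := fun z => c (π (e.symm z))) z
    (b1.sub b2) (a1.restrictScalars (𝕜 := ℝ)).contDiffAt) b3, fun w => ?_⟩
  rw [levi_congr b3, levi_hol a1 (b1.sub b2), levi_sub b1 b2, levi_const_mul (k2 a2).1.1,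
    levi_const_mul (k2 a2).2]
  set w' := fderiv ℂ (fun z => c (π (e.symm z))) z w
  have b4 := hM _ a2 w'
  have b5 : 0 ≤ levi (fun t => ψ (c.symm t)) (c (π (e.symm z))) w' := by
    by_cases h : w' = 0
    · simp [h, levi]
    · exact ((k2 a2).1.2 w' h).le
  have b6 : q * M ≤ k := Nat.ceil_le.1 hk
  have b7 := (le_abs_self _).trans ((le_add_of_nonneg_left gsq_nonneg).trans b4)
  nlinarith [mul_le_mul_of_nonneg_left b7 hq, mul_le_mul_of_nonneg_right b6 b5]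

/-- the local potentials -/
theorem loc {π : Y → W} (hπ : Continuous π)
    (hh : ∀ y g, Hol n g (π y) → Hol n (fun z => g (π z)) y) {r : ℕ} {E : Fin r → Set Y}
    {lab : Y → Fin r → Option (Fin n)} {c : Fin r → ℚ} {v : Y → ℝ} {y : Y}
    (hP : PosF π E lab c v y) {ψ : W → ℝ} {O : Set W} (hO : IsOpen O) (hy : π y ∈ O)
    (hψ : ∀ x ∈ O, Spsh n ψ x) {q : ℝ} (hq : 0 < q) :
    ∃ (V : Set Y) (k₀ : ℕ) (φ : Y → ℝ), IsOpen V ∧ y ∈ V ∧ ∀ z ∈ V,
      z ∈ (chartAt (Cm n) y).source ∧ π z ∈ O ∧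
      ((∀ l, z ∉ E l) → φ z = q * v z - 2 * ∑ l, q * c l * Real.log ‖zt lab l y z‖) ∧
      ∀ k : ℕ, k₀ ≤ k → SPshAt n (fun x => k * ψ (π x) + φ x) z := by
  obtain ⟨m, g, ε, U, h, a1, a2, a3, a4, a5, a6, a7⟩ := hP
  have he := at_chartAt (n := n) y
  set e := chartAt (Cm n) y with he'
  obtain ⟨k₀, hk⟩ := big hπ hh he (mem_of_superset (hO.mem_nhds hy) hψ) a1 hq.le
  have hN := (hk.and (a3.mem_nhds a4)).and (e.open_target.mem_nhds (e.map_source he.2))
  have hV := ((((e.continuousAt he.2).eventually hN.eventually_nhds).and a7).and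
    (e.open_source.mem_nhds he.2)).and ((hπ.tendsto y).eventually (hO.mem_nhds hy))
  refine ⟨interior _, k₀, fun x => q * (h (e x) - ∑ j, ‖g j (π x)‖ ^ 2), isOpen_interior,
    mem_interior_iff_mem_nhds.2 hV, fun z hz => ?_⟩
  obtain ⟨⟨⟨b1, b2⟩, b3⟩, b4⟩ := interior_subset hz
  refine ⟨b3, b4, fun hE => ?_, fun k hk => ⟨e, ⟨he.1, b3⟩, q * ε, mul_pos hq a2, _, b1, ?_, ?_⟩⟩
  · have h1 : ∀ l, Real.log ‖zt lab l y z‖ =
        (lab y l).elim 0 fun i => Real.log ‖chartAt (Cm n) y z i‖ := fun l => by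
      unfold zt
      cases lab y l <;> simp
    simp only [h1, mul_assoc, ← Finset.mul_sum]
    rw [b2 hE]
    ring
  · refine ContinuousOn.congr (f := fun z => (k * ψ (π (e.symm z)) -
      q * ∑ j, ‖g j (π (e.symm z))‖ ^ 2) + q * h z) (ContinuousOn.add (fun t ht =>
        (ht.1.1 k hk).1.continuousAt.continuousWithinAt)
        (continuousOn_const.mul (a5.mono fun t ht => ht.1.2))) fun t ht => ?_
    simp only [e.right_inv ht.2]
    ring
  · have h1 : ContinuousOn (fun z => h z - ε * ∑ i, ‖z i‖ ^ 2) U := a5.sub (by fun_prop)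
    refine ((psh_of_levi fun t ht => ht.1.1 k hk).add
      ((a6.mono fun t ht => ht.1.2).const_mul hq.le)
      (.of_cont fun t ht => (ht.1.1 k hk).1.continuousAt.continuousWithinAt)
      (.of_cont (continuousOn_const.mul (h1.mono fun t ht => ht.1.2)))).congr fun t ht => ?_
    simp only [e.right_inv ht.2, nsq]
    ring

end PosbH

open PosbH in
theorem posb : POSB := by
  intro n N G' G π A r E lab c v hπ hh hF ⟨ψ, hA, hψ, hc⟩ hS hO h0 hP
  obtain ⟨q, hq, m, hm⟩ := exists_q c h0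
  choose i hi using fun y : G'.F => hA.cover _ (hF y y.2)
  choose V k₀ φ hV hy hz using fun y : G'.F => loc hπ hh (hP y y.2) (hA.isOpen _) (hi y)
    (hψ (i y)) (q := q) (Nat.cast_pos.2 hq)
  obtain ⟨T, hT⟩ := G'.cpt.elim_finite_subcover V hV fun y hy' => mem_iUnion.2 ⟨⟨y, hy'⟩, hy _⟩
  set k := T.sup k₀
  let g : T → T → G'.W → ℂ := fun a b z =>
    A.g (i a) (i b) (π z) ^ k * ∏ l, ((og lab l).g a.1.1 b.1.1 z)⁻¹ ^ m l
  let u : T → G'.W → ℝ := fun a x => k * ψ (i a) (π x) + φ a x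
  have hu : ∀ a : T, ∀ z ∈ V a, SPshAt n (u a) z := fun a z h =>
    (hz a z h).2.2.2 k (Finset.le_sup a.2)
  have g1 : ∀ (a b : T) z, z ∈ V a → z ∈ V b → Hol n (g a b) z := fun a b z ha hb =>
    hol_mul (hol_pow (hh z _ (hA.holo _ _ _ (hz a z ha).2.1 (hz b z hb).2.1)) k)
      (hol_prod _ fun l _ => hol_pow (hol_inv ((hO l).holo _ _ z (hz a z ha).1 (hz b z hb).1)
        ((hO l).ne_zero _ _ z (hz a z ha).1 (hz b z hb).1)) _)
  have g2 : ∀ (a b : T) z, z ∈ V a → z ∈ V b → g a b z ≠ 0 := fun a b z ha hb =>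
    mul_ne_zero (pow_ne_zero _ (hA.ne_zero _ _ _ (hz a z ha).2.1 (hz b z hb).2.1))
      (Finset.prod_ne_zero_iff.2 fun l _ => pow_ne_zero _
        (inv_ne_zero ((hO l).ne_zero _ _ z (hz a z ha).1 (hz b z hb).1)))
  have g3 : ∀ (a b : T) z, z ∈ V a → z ∈ V b → (∀ l, zt lab l a z ≠ 0) →
      u a z - u b z = Real.log (‖g a b z‖ ^ 2) := fun a b z ha hb hne => by
    have hE : ∀ l, z ∉ E l := fun l hl => by
      obtain ⟨j, h1, h2⟩ := (hS.snc a l z (hz a z ha).1).1 hl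
      exact hne l (by simp [zt, h1, h2])
    have h1 : ∀ l, (og lab l).g a.1.1 b.1.1 z ≠ 0 := fun l =>
      (hO l).ne_zero _ _ z (hz a z ha).1 (hz b z hb).1
    have h2 : ∀ l, Real.log ‖zt lab l a z‖ =
        Real.log ‖(og lab l).g a.1.1 b.1.1 z‖ + Real.log ‖zt lab l b z‖ := fun l => by
      have h3 := (hO l).chg _ _ z (hz a z ha).1 (hz b z hb).1
      have h4 := hne l
      rw [h3] at h4
      rw [h3, norm_mul, Real.log_mul (norm_ne_zero_iff.2 (h1 l))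
        (norm_ne_zero_iff.2 (right_ne_zero_of_mul h4))]
    have h3 := hA.ne_zero _ _ _ (hz a z ha).2.1 (hz b z hb).2.1
    simp only [u, g]
    rw [(hz a z ha).2.2.1 hE, (hz b z hb).2.2.1 hE, hc _ _ _ (hz a z ha).2.1 (hz b z hb).2.1,
      Real.log_pow, Real.log_pow, norm_mul, norm_pow, norm_prod,
      Real.log_mul (pow_ne_zero _ (norm_ne_zero_iff.2 h3)) (Finset.prod_ne_zero_iff.2 fun l _ =>
        norm_ne_zero_iff.2 (pow_ne_zero _ (inv_ne_zero (h1 l)))), Real.log_pow,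
      Real.log_prod fun l _ => norm_ne_zero_iff.2 (pow_ne_zero _ (inv_ne_zero (h1 l)))]
    simp only [h2, ← hm, norm_pow, norm_inv, Real.log_pow, Real.log_inv, mul_add, mul_neg,
      Finset.sum_add_distrib, Finset.sum_neg_distrib]
    push_cast
    ring
  have g4 : ∀ (a b : T) z, z ∈ V a → z ∈ V b → u a z - u b z = Real.log (‖g a b z‖ ^ 2) :=
    fun a b z ha hb => by
    refine tendsto_nhds_unique_of_frequently_eq ((sp_cont (hu a z ha)).sub (sp_cont (hu b z hb)))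
      (((hol_cont (g1 a b z ha hb)).norm.pow 2).log
        (pow_ne_zero 2 (norm_ne_zero_iff.2 (g2 a b z ha hb)))) (gen_freq' ?_)
    filter_upwards [gen_of_nhds ((hV a).mem_nhds ha), gen_of_nhds ((hV b).mem_nhds hb),
      eventually_all.2 fun l => hol_gen_ne ((hO l).hol _ z (hz a z ha).1)
        ((hO l).nz _ z (hz a z ha).1)] with w h1 h2 h3 using g3 a b w h1 h2 h3
  have hcov : G'.F ⊆ ⋃ a : T, V a := fun y h => by
    obtain ⟨a, h1, h2⟩ := mem_iUnion₂.1 (hT h)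
    exact mem_iUnion.2 ⟨⟨a, h1⟩, h2⟩
  obtain ⟨γ, O, o1, o2, o3⟩ := rb n G'.W T (fun a => V a) u G'.F G'.cpt (fun a => hV a) hcov hu
    fun a b z ha hb => flat_of (g1 a b z ha hb) (g2 a b z ha hb) (by
      filter_upwards [(hV a).mem_nhds ha, (hV b).mem_nhds hb] with w h1 h2 using g4 a b w h1 h2)
  refine ⟨⟨T, fun a => V a ∩ O, g⟩, ⟨fun a x => u a x + γ x, ⟨fun a => (hV a).inter o1,
    fun x hx => ?_, fun a b z ha hb => g1 a b z ha.1 hb.1, fun a b z ha hb => g2 a b z ha.1 hb.1,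
    fun a b d z ha hb hd => ?_⟩, fun a x hx => o3 a x hx.2 hx.1, fun a b z ha hb => ?_⟩,
    fun x hx => ?_⟩
  · obtain ⟨a, ha⟩ := mem_iUnion.1 (hcov hx)
    exact ⟨a, ha, o2 hx⟩
  · simp only [g]
    rw [mul_mul_mul_comm, ← mul_pow, ← Finset.prod_mul_distrib,
      hA.cocycle _ _ _ _ (hz a z ha.1).2.1 (hz b z hb.1).2.1 (hz d z hd.1).2.1]
    refine congrArg _ (Finset.prod_congr rfl fun l _ => ?_)
    rw [← mul_pow, ← mul_inv, (hO l).cocycle _ _ _ z (hz a z ha.1).1 (hz b z hb.1).1 (hz d z hd.1).1]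
  · have := g4 a b z ha.1 hb.1
    dsimp only
    linarith
  · obtain ⟨j, hj⟩ := hA.cover x hx
    refine ⟨A.U j, (hA.isOpen j).mem_nhds hj, fun a z =>
      A.g j (i a.1) (π z) ^ k * ∏ l, zt lab l a.1.1 z ^ m l, fun a z ha hj' => ?_⟩
    have h1 := hol_pow (hh z _ (hA.holo _ _ _ hj' (hz _ z ha.1).2.1)) k
    refine ⟨hol_mul h1 (hol_prod _ fun l _ => hol_pow ((hO l).hol _ z (hz _ z ha.1).1) _),
      not_zero_of_gen ?_, fun b hb => ?_⟩
    · filter_upwards [gen_of_nhds (hol_ne h1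
        (pow_ne_zero _ (hA.ne_zero _ _ _ hj' (hz _ z ha.1).2.1))),
        eventually_all.2 fun l => hol_gen_ne ((hO l).hol _ z (hz _ z ha.1).1)
          ((hO l).nz _ z (hz _ z ha.1).1)] with w h2 h3
      exact mul_ne_zero h2 (Finset.prod_ne_zero_iff.2 fun l _ => pow_ne_zero _ (h3 l))
    · simp only [g]
      rw [mul_mul_mul_comm, ← mul_pow, ← Finset.prod_mul_distrib,
        hA.cocycle _ _ _ _ hj' (hz _ z ha.1).2.1 (hz _ z hb.1).2.1]
      refine congrArg _ (Finset.prod_congr rfl fun l _ => ?_)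
      rw [← mul_pow, (hO l).chg _ _ z (hz _ z ha.1).1 (hz _ z hb.1).1, mul_right_comm,
        mul_inv_cancel₀ ((hO l).ne_zero _ _ z (hz _ z ha.1).1 (hz _ z hb.1).1), one_mul]

end Vale.Agent.P277Z.Hl
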