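import Vale.Agent.P277Z.Hl.Defs
import Vale.Agent.P277Z.Hir.IA

/-!
# P277Z, block HIRL: families comparable with a monomial
-/

set_option linter.all false

open scoped Topology
open Set Filter
open Vale.Agent.P272.K (Cm)
open Vale.Agent.P277Z.Hir (Cpb)

noncomputable section

namespace Vale.Agent.P277Z.Hl

namespace Prin

variable {n : ℕ}

theorem neBot (u : Cm n) : (𝓝[{z : Cm n | ∀ j, z j ≠ 0}] u).NeBot := by
  have h : Dense (Set.pi univ fun _ : Fin n => ({0}ᶜ : Set ℂ)) :=
    dense_pi univ fun _ _ => dense_compl_singleton 0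
  have h' : Dense {z : Cm n | ∀ j, z j ≠ 0} := by
    refine h.mono ?_
    intro z hz j
    exact hz j (mem_univ j)
  exact mem_closure_iff_nhdsWithin_neBot.1 (h' u)

theorem mem_of_dense {X : Type} [TopologicalSpace X] {φ : Cm n → X} {C : Set X} (hC : IsClosed C)
    {u : Cm n} (hφ : ContinuousAt φ u) (h : ∀ᶠ z in 𝓝 u, (∀ j, z j ≠ 0) → φ z ∈ C) : φ u ∈ C := by
  have := neBot u
  exact hC.mem_of_tendsto (b := 𝓝[{z : Cm n | ∀ j, z j ≠ 0}] u)
    (hφ.tendsto.mono_left nhdsWithin_le_nhds) (eventually_nhdsWithin_iff.2 h)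

theorem pj_eq (i : Fin n) (u : Cm n) :
    Hir.IH.pj (ContinuousLinearMap.proj i : Cm n →L[ℂ] ℂ) (Pi.single i 1) u =
      Function.update u i 0 := by
  funext j
  rcases eq_or_ne j i with rfl | h
  · simp [Hir.IH.pj]
  · simp [Hir.IH.pj, h]

/-- the quotient vanishes on the hyperplane -/
theorem vanish {f b : Cm n → ℂ} {x : Fin n → ℝ} {e : Fin n → ℕ} {C : ℝ} {i : Fin n} {u : Cm n}
    (hu : ∀ j, u j ≠ 0) (hi : (e i : ℝ) < x i) (hb : ContinuousAt b (Function.update u i 0))
    (h1 : ∀ᶠ z in 𝓝 (Function.update u i 0), f z = (∏ j, z j ^ e j) * b z)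
    (h2 : ∀ᶠ z in 𝓝 (Function.update u i 0), ‖f z‖ ≤ C * ∏ j, ‖z j‖ ^ x j) :
    b (Function.update u i 0) = 0 := by
  have hc : Tendsto (Function.update u i) (𝓝[≠] 0) (𝓝 (Function.update u i 0)) :=
    ((continuous_const.update i continuous_id).tendsto 0).mono_left nhdsWithin_le_nhds
  have hM : 0 < ∏ j ∈ Finset.univ.erase i, ‖u j‖ ^ e j :=
    Finset.prod_pos fun j _ => pow_pos (norm_pos_iff.2 (hu j)) _
  have h3 : Tendsto (fun s : ℂ => ‖s‖ ^ (x i - e i) * ((C * ∏ j ∈ Finset.univ.erase i,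
      ‖u j‖ ^ x j) / ∏ j ∈ Finset.univ.erase i, ‖u j‖ ^ e j)) (𝓝[≠] 0) (𝓝 0) := by
    have := ((continuous_norm.tendsto (0 : ℂ)).rpow_const (p := x i - e i)
      (Or.inr (by linarith))).mul_const ((C * ∏ j ∈ Finset.univ.erase i,
      ‖u j‖ ^ x j) / ∏ j ∈ Finset.univ.erase i, ‖u j‖ ^ e j)
    rw [norm_zero, Real.zero_rpow (by linarith), zero_mul] at this
    exact this.mono_left nhdsWithin_le_nhds
  refine tendsto_nhds_unique (hb.tendsto.comp hc) (squeeze_zero_norm' ?_ h3)
  filter_upwards [hc.eventually h1, hc.eventually h2, self_mem_nhdsWithin] with s e1 e2 hs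
  have hs' : 0 < ‖s‖ := norm_pos_iff.2 hs
  rw [e1, norm_mul, norm_prod, ← Finset.mul_prod_erase _ _ (Finset.mem_univ i),
    ← Finset.mul_prod_erase _ (fun j => ‖Function.update u i s j‖ ^ x j) (Finset.mem_univ i),
    Function.update_self,
    Finset.prod_congr rfl (g := fun j => ‖u j‖ ^ e j) fun j hj => by
      rw [Function.update_of_ne (Finset.ne_of_mem_erase hj), norm_pow],
    Finset.prod_congr rfl (f := fun j => ‖Function.update u i s j‖ ^ x j)
      (g := fun j => ‖u j‖ ^ x j) fun j hj => by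
      rw [Function.update_of_ne (Finset.ne_of_mem_erase hj)], norm_pow] at e2
  rw [Real.rpow_sub hs', Real.rpow_natCast, div_mul_div_comm, le_div_iff₀ (by positivity)]
  rw [Function.comp_apply]
  linarith

theorem exists_div {f : Cm n → ℂ} {z₀ : Cm n} (hf : AnalyticAt ℂ f z₀) {x : Fin n → ℝ} {C : ℝ}
    (h2 : ∀ᶠ z in 𝓝 z₀, ‖f z‖ ≤ C * ∏ j, ‖z j‖ ^ x j) (N : ℕ) : ∀ e : Fin n → ℕ, ∑ i, e i = N →
    (∀ i, e i ≤ if z₀ i = 0 then ⌈x i⌉₊ else 0) →
    ∃ b : Cm n → ℂ, AnalyticAt ℂ b z₀ ∧ ∀ᶠ z in 𝓝 z₀, f z = (∏ j, z j ^ e j) * b z := by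
  induction N with
  | zero =>
    intro e he _
    refine ⟨f, hf, Eventually.of_forall fun z => ?_⟩
    simp [Finset.sum_eq_zero_iff.1 he]
  | succ N ih =>
    intro e he hE
    obtain ⟨i, -, hi⟩ := Finset.exists_ne_zero_of_sum_ne_zero (he.trans_ne N.succ_ne_zero)
    obtain ⟨k, hk⟩ := Nat.exists_eq_succ_of_ne_zero hi
    have h0 : z₀ i = 0 := by
      by_contra h
      have := hE i
      rw [if_neg h] at this
      omega
    have h3 := hE i
    rw [if_pos h0] at h3
    have e1 : ∀ z : Cm n, ∏ j, z j ^ e j = (∏ j, z j ^ Function.update e i k j) * z i := fun z => by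
      rw [← Finset.mul_prod_erase _ _ (Finset.mem_univ i),
        ← Finset.mul_prod_erase _ (fun j => z j ^ Function.update e i k j) (Finset.mem_univ i),
        Function.update_self, hk, pow_succ, mul_right_comm]
      congr 2
      exact Finset.prod_congr rfl fun j hj => by
        rw [Function.update_of_ne (Finset.ne_of_mem_erase hj)]
    obtain ⟨b, hb, h1⟩ := ih (Function.update e i k) (by
      rw [Finset.sum_update_of_mem (Finset.mem_univ i)]
      rw [← Finset.add_sum_erase _ _ (Finset.mem_univ i), Finset.erase_eq] at he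
      omega) fun j => by
      rcases eq_or_ne j i with rfl | h
      · rw [Function.update_self]
        exact le_trans (by omega) (hE j)
      · rw [Function.update_of_ne h]
        exact hE j
    obtain ⟨g, hg, h4⟩ := Hir.IH.hadamard (l := (ContinuousLinearMap.proj i : Cm n →L[ℂ] ℂ))
      (Pi.single i 1) h0 hb
    have hc : Continuous fun u : Cm n => Function.update u i 0 :=
      continuous_id.update i continuous_const
    have ht : Tendsto (fun u : Cm n => Function.update u i 0) (𝓝 z₀) (𝓝 z₀) := by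
      have := hc.tendsto z₀
      rwa [← h0, Function.update_eq_self, h0] at this
    have h5 := ht.eventually ((hb.eventually_analyticAt.and h1.eventually_nhds).and
      h2.eventually_nhds)
    refine ⟨g, hg, ?_⟩
    filter_upwards [h1, h5, h5.eventually_nhds] with u e2 e3 e4
    have e5 : b (Function.update u i 0) = 0 := mem_of_dense (C := {0}) isClosed_singleton
      (φ := fun u => b (Function.update u i 0)) 
      (e3.1.1.continuousAt.comp (f := fun u : Cm n => Function.update u i 0) hc.continuousAt)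
      (e4.mono fun z hz hz' => vanish hz' (by
        rw [Function.update_self]
        exact Nat.lt_ceil.1 (by omega)) hz.1.1.continuousAt hz.1.2 hz.2)
    have e6 := h4 u
    rw [pj_eq, e5, sub_zero] at e6
    rw [e2, e6, e1, mul_assoc]
    rfl

theorem lower (x : ℝ) (t₀ : ℂ) : ∃ δ : ℝ, 0 < δ ∧ ∀ᶠ t in 𝓝 t₀, t ≠ 0 →
    δ * ‖t‖ ^ (if t₀ = 0 then ⌈x⌉₊ else 0) ≤ ‖t‖ ^ x := by
  split_ifs with h
  · subst h
    refine ⟨1, one_pos, ?_⟩
    filter_upwards [Metric.closedBall_mem_nhds (0 : ℂ) one_pos] with t ht h0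
    rw [one_mul, ← Real.rpow_natCast]
    exact Real.rpow_le_rpow_of_exponent_ge (norm_pos_iff.2 h0) (mem_closedBall_zero_iff.1 ht)
      (Nat.le_ceil x)
  · have h1 : 0 < ‖t₀‖ ^ x := Real.rpow_pos_of_pos (norm_pos_iff.2 h) x
    refine ⟨_, half_pos h1, ?_⟩
    filter_upwards [((continuous_norm.tendsto t₀).rpow_const (p := x)
      (Or.inl (norm_ne_zero_iff.2 h))).eventually_const_le (half_lt_self h1)] with t ht _
    rwa [pow_zero, mul_one]

end Prin

open Prin in
theorem prin : PRIN := by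
  classical
  intro n r κ _ a z₀ lab ex _ hex ha ⟨C, hC, H⟩
  let x : Fin n → ℝ := fun i => ∑ l, if lab l = some i then ex l else 0
  have hm : ∀ z : Cm n, (∏ l, (lab l).elim 1 fun i => ‖z i‖ ^ ex l) = ∏ i, ‖z i‖ ^ x i := fun z => by
    simp only [x]
    rw [Finset.prod_congr rfl fun i _ => Real.rpow_sum_of_nonneg (norm_nonneg (z i))
      (fun l _ => by split_ifs; exacts [hex l, le_rfl]), Finset.prod_comm]
    refine Finset.prod_congr rfl fun l _ => ?_
    rcases lab l with _ | i
    · simp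
    · rw [Finset.prod_eq_single i (fun j _ hj => by simp [hj.symm]) (by simp)]
      simp
  simp only [hm] at H
  choose b hb h1 using fun k => exists_div (ha k) (x := x) (C := C) (H.mono fun z hz =>
    (Finset.single_le_sum (f := fun k => ‖a k z‖) (fun _ _ => norm_nonneg _)
      (Finset.mem_univ k)).trans hz.1) _ _ rfl fun _ => le_rfl
  choose δ hδ h2 using fun i => lower (x i) (z₀ i)
  have h3 : ∏ i, δ i ≤ C * ∑ k, ‖b k z₀‖ := mem_of_dense (φ := fun z => C * ∑ k, ‖b k z‖)
    (C := Ici (∏ i, δ i)) isClosed_Ici (continuousAt_const.mul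
      (tendsto_finsetSum _ fun k _ => (hb k).continuousAt.norm)) (by
    filter_upwards [H, eventually_all.2 h1, eventually_all.2 fun i =>
      ((continuous_apply i).tendsto z₀).eventually (h2 i)] with z e1 e2 e3 hz
    have e4 := (Finset.prod_le_prod (fun i _ => by have := hδ i; positivity)
      fun i (_ : i ∈ Finset.univ) => e3 i (hz i)).trans e1.2
    simp only [e2, norm_mul, norm_prod, norm_pow, ← Finset.mul_sum] at e4
    rw [Finset.prod_mul_distrib, mul_left_comm, mul_comm] at e4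
    exact le_of_mul_le_mul_left e4 (Finset.prod_pos fun i _ => pow_pos (norm_pos_iff.2 (hz i)) _))
  obtain ⟨k₀, -, h4⟩ := Finset.exists_ne_zero_of_sum_ne_zero (s := Finset.univ)
    (f := fun k => ‖b k z₀‖) fun e => by
      rw [e, mul_zero] at h3
      exact (Finset.prod_pos fun i _ => hδ i).not_ge h3
  have h5 : b k₀ z₀ ≠ 0 := norm_ne_zero_iff.1 h4
  refine ⟨k₀, fun k => ⟨fun z => b k z / b k₀ z, (hb k).div (hb k₀) h5, ?_⟩⟩
  filter_upwards [h1 k, h1 k₀, (hb k₀).continuousAt.eventually_ne h5] with z e1 e2 e3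
  rw [e1, e2]
  field_simp

end Vale.Agent.P277Z.Hl
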