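import Vale.Agent.P277Z.Hl.Defs
import Vale.Agent.P277Z.Bir.Alg

/-!
# P277Z, block HIRL: exceptional prime divisors
-/

open scoped Topology
open Set Filter

namespace Vale.Agent.P277Z.Hl

open Lo Bi

theorem exc : EXC := by
  intro n N K _ _ M' M m O Z hB hL hC y P p hp hP
  let x : M.F := ⟨m.g y, m.img ▸ mem_image_of_mem _ y.2⟩
  have h1 : ∀ f ∈ M.O x, f ∈ M'.O y ∧ ∀ᶠ z in 𝓝 (y : M'.W), M'.val f z = M.val f (m.g z) :=
    fun f hf => ⟨M'.mem_O_of (m.hol y y.2 _ hf) (M'.at_pt (m.val f) y),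
      M'.val_eq y.2 (m.hol y y.2 _ hf) (M'.at_pt (m.val f) y)⟩
  have h2 : M.Ct x P := fun f hf => hp.le f (h1 f hf).1
  obtain ⟨R, hR, h3⟩ := exists_on hL h2
  obtain ⟨b, hb, b0, b1, b2⟩ : ∃ b ∈ M.O x, b ≠ 0 ∧ R.ord b = 0 ∧ P.ord b ≠ 0 := by
    by_contra! k
    exact hP ⟨x, eq_of_cop h2 (gn_eqn hR) k ▸ hR⟩
  have h4 : ∀ f ∈ M.O x, 0 < P.ord f →
      ∀ᶠ z in 𝓝 (y : M'.W), M'.val p z = 0 → M.val f (m.g z) = 0 := fun f hf k => by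
    filter_upwards [(h1 f hf).2, M'.nhds_mul (hp.dvd f (h1 f hf).1 k) hp.mem] with z a c d
    rw [← a, ← div_mul_cancel₀ f (gn_ne hp), c, d, mul_zero]
  filter_upwards [((h4 _ (eqn_mem x R) h3).and
    (h4 b hb ((ct_nonneg h2 hb).lt_of_ne' b2))).eventually_nhds, Hol.near hp.mem,
    (m.cont y y.2).eventually (hC x R _ (gn_eqn hR) b hb b0 b1)] with z a c d e
  by_contra k
  obtain ⟨σ, s1, s2, s3, s4⟩ := hB.sec z k
  refine d _ (s4 _ c) (by rw [s2, e]) ?_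
  filter_upwards [s1.eventually (s2.symm ▸ a), s3] with w a1 a2 a3
  exact a2 ▸ ⟨a1.1 a3, a1.2 a3⟩

end Vale.Agent.P277Z.Hl
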