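import Vale.Agent.P277Z.Hl.Defs
import Vale.Agent.P277Z.Bert.Api

/-!
# P277Z, block HIRL: the row KCO
-/

open scoped Manifold ContDiff Topology
open Set Filter
open Vale.Agent.P272.K (Cm Chart At)
open Vale.Agent.P297 (Place)

noncomputable section

namespace Vale.Agent.P277Z.Hl

open Lo

namespace Kc

variable {n N : ℕ} {K : Type} [Field K] [Algebra ℂ K] {M : Mdl n N K} {r : ℕ}
  {lab : M.W → Fin r → Option (Fin n)}

theorem co_ev (y : M.W) (i : Fin n) :
    (fun z => chartAt (Cm n) y ((chartAt (Cm n) y).symm z) i) =ᶠ[𝓝 (chartAt (Cm n) y y)]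
      fun z => z i := by
  filter_upwards [(chartAt (Cm n) y).open_target.mem_nhds (mem_chart_target _ _)] with z hz
  rw [(chartAt (Cm n) y).right_inv hz]

theorem co_fd (y : M.W) (i : Fin n) :
    HasFDerivAt (fun z => chartAt (Cm n) y ((chartAt (Cm n) y).symm z) i)
      (ContinuousLinearMap.proj (R := ℂ) (φ := fun _ : Fin n => ℂ) i) (chartAt (Cm n) y y) :=
  (hasFDerivAt_apply i _).congr_of_eventuallyEq (co_ev y i)

/-- an element of `K` which is a unit times the equation of `E l` -/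
theorem eqn (hM : M.Proj) (hS : SEC n) (hB : Lbd M) {l : Fin r} (h : Og lab l) (y : M.F) :
    ∃ t ∈ M.O y, ∃ u : M.W → ℂ, Hol n u y ∧ u y ≠ 0 ∧
      ∀ᶠ w in 𝓝 (y : M.W), M.val t w = u w * zt lab l y w := by
  have hy : (y : M.W) ∈ (og lab l).U (y : M.W) := mem_chart_source (Cm n) (y : M.W)
  have hL : M.LB (og lab l) := ⟨fun a : M.W => (chartAt (Cm n) a).open_source,
    fun x _ => ⟨x, mem_chart_source (Cm n) x⟩, h.holo, h.ne_zero, h.cocycle⟩
  obtain ⟨D, s, -, -, h1, h2⟩ := hS N K M hM _ hL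
  have hσ : M.Sec (og lab l) (zt lab l :) :=
    .of_forall fun z a ha => ⟨h.hol a z ha, fun b hb => h.chg a b z ha hb⟩
  obtain ⟨f, -, hf⟩ := hB.fn _ D s _ ⟨hL, h1, h2⟩ hσ
  obtain ⟨t, u, -, -, hu, hu0, ht⟩ := h2 y (y : M.W) hy
  have hh := hol_mul (hol_inv hu hu0) (h.hol _ _ hy)
  have hg : ∀ᶠ w in gen {(y : M.W)}, M.val (f * t) w = (u w)⁻¹ * zt lab l y w := by
    filter_upwards [hf y (y : M.W) hy, ht, M.at_pt (M.val_mul f t) y, gen_of_nhds (hol_ne hu hu0)]
      with w k1 k2 k3 k4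
    rw [k3, k1, k2]
    field_simp
  exact ⟨_, M.mem_O_of hh hg, _, hol_inv hu hu0, inv_ne_zero hu0, M.val_eq y.2 hh hg⟩

/-- an element of `K` with the differential `dz_i` -/
theorem lin (hL : Loc M) (y : M.F) (i : Fin n) : ∃ t ∈ M.O y, M.val t y = 0 ∧
    ∀ v, fderiv ℂ (fun z => M.val t ((chartAt (Cm n) (y : M.W)).symm z)) (chartAt (Cm n) (y : M.W) y)
      v = v i := by
  obtain ⟨s, hs⟩ := hL.coord y
  have he := at_chartAt (n := n) (y : M.W)
  set e := chartAt (Cm n) (y : M.W)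
  set A := fderiv ℂ (fun z j => M.val (s j) (e.symm z)) (e y) with hA
  have hinj : Function.Injective (A : Cm n →ₗ[ℂ] Cm n) := Bert.jd_ne_iff.1 (hs.2 e he)
  obtain ⟨B, hB⟩ := (A : Cm n →ₗ[ℂ] Cm n).exists_leftInverse_of_injective
    (LinearMap.ker_eq_bot.2 hinj)
  have hv := Bert.val_lin (fun j => B (Pi.single j 1) i) fun j => (hs.1 j).1
  refine ⟨∑ j, algebraMap ℂ K (B (Pi.single j 1) i) * s j,
    sum_mem fun j _ => mul_mem ((M.O y).algebraMap_mem _) (hs.1 j).1, ?_, fun v => ?_⟩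
  · rw [hv.self_of_nhds]
    exact Finset.sum_eq_zero fun j _ => by rw [(hs.1 j).2, mul_zero]
  · have hd : ∀ j, DifferentiableAt ℂ (fun z => M.val (s j) (e.symm z)) (e y) := fun j =>
      ((hs.1 j).1 e he).differentiableAt
    have h1 := HasFDerivAt.fun_sum (u := Finset.univ) fun j _ =>
      (hd j).hasFDerivAt.const_mul (B (Pi.single j 1) i)
    rw [(h1.congr_of_eventuallyEq ((tendsto_symm he).eventually hv)).fderiv]
    have h2 : B (A v) = v := LinearMap.congr_fun hB v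
    have h3 : A v = ∑ j, A v j • (Pi.single j 1 : Cm n) := by
      ext k
      simp [Finset.sum_apply, Pi.single_apply]
    rw [h3, map_sum] at h2
    rw [← congrFun h2 i, Finset.sum_apply, sum_apply]
    refine Finset.sum_congr rfl fun j _ => ?_
    rw [map_smul, hA, fderiv_pi hd]
    simp [mul_comm]

omit [Algebra ℂ K] in
theorem ord_pos {ι : Type} (P : Place K) (s : Finset ι) (f : ι → K) (h0 : ∀ i, f i ≠ 0)
    (h : 0 < P.ord (∏ i ∈ s, f i)) : ∃ i, 0 < P.ord (f i) := by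
  by_contra hn
  refine h.not_ge ?_
  clear h
  induction s using Finset.cons_induction with
  | empty => simp
  | cons a s ha ih =>
    rw [Finset.prod_cons, P297Z.Pl.ord_mul P (h0 a) (Finset.prod_ne_zero_iff.2 fun i _ => h0 i)]
    exact add_nonpos (not_lt.1 fun k => hn ⟨a, k⟩) ih

end Kc

open Kc

theorem kco {n : ℕ} (hL : LOC n) (hS : SEC n) (hB : LBD n) : KCO n := by
  intro N K _ _ M hM r E lab hE hO y
  classical
  have lc : Loc M := hL N K M hM
  have he := at_chartAt (n := n) (y : M.W)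
  set e := chartAt (Cm n) (y : M.W) with he'
  have H : ∀ i, ∃ t ∈ M.O y, M.val t y = 0 ∧ (∃ c : ℂ, c ≠ 0 ∧
      ∀ v, fderiv ℂ (fun z => M.val t (e.symm z)) (e y) v = c * v i) ∧
      ((∃ l, lab y l = some i) → e y i = 0 → ∀ᶠ w in 𝓝 (y : M.W), e w i = 0 → M.val t w = 0) := by
    intro i
    by_cases hi : (∃ l, lab y l = some i) ∧ e y i = 0
    · obtain ⟨⟨l, hl⟩, h0⟩ := hi
      obtain ⟨t, ht, u, hu, hu0, h⟩ := eqn hM hS (hB N K M hM) (hO l) y
      simp only [zt, hl, Option.elim_some, ← he'] at h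
      refine ⟨t, ht, by rw [h.self_of_nhds, h0, mul_zero], ⟨u y, hu0, fun v => ?_⟩,
        fun _ _ => h.mono fun w h1 h2 => by rw [h1, h2, mul_zero]⟩
      have h1 := (hu e he).differentiableAt.hasFDerivAt.fun_mul (co_fd (y : M.W) i)
      rw [(h1.congr_of_eventuallyEq ((tendsto_symm he).eventually h)).fderiv]
      simp [← he', e.left_inv he.2, h0]
    · obtain ⟨t, ht, h0, h⟩ := lin lc y i
      exact ⟨t, ht, h0, ⟨1, one_ne_zero, fun v => by rw [h, one_mul]⟩,
        fun h1 h2 => (hi ⟨h1, h2⟩).elim⟩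
  choose t ht h0 hc hz using H
  choose c hc0 hc using hc
  have hne : ∀ i, fderiv ℂ (fun z => M.val (t i) (e.symm z)) (e y) ≠ 0 := fun i h => by
    have h1 := hc i (Pi.single i 1)
    rw [h] at h1
    exact hc0 i (by simpa using h1.symm)
  have ht0 : ∀ i, t i ≠ 0 := fun i h => hne i (by simp [h, M.val_zero])
  refine ⟨t, Bert.coord_of_chart (fun i => ⟨ht i, h0 i⟩) he fun v v' hv => ?_, fun P p hp hpE => ?_⟩
  · rw [fderiv_pi fun i => (ht i e he).differentiableAt] at hv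
    funext i
    have h1 := congrFun hv i
    simp only [ContinuousLinearMap.pi_apply, hc] at h1
    exact mul_left_cancel₀ (hc0 i) h1
  set S := Finset.univ.filter fun i => (∃ l, lab y l = some i) ∧ e y i = 0 with hS'
  have ha : Hol n (fun w => ∏ i ∈ S, M.val (t i) w) y := hol_prod S fun i _ => ht i
  have h1 : ∀ᶠ w in 𝓝 (y : M.W), ∀ i, e w i = 0 → e y i = 0 := eventually_all.2 fun i => by
    by_cases h : e y i = 0
    · exact .of_forall fun _ _ => h
    · exact (((continuous_apply i).continuousAt.comp (e.continuousAt he.2)).eventually_ne h).mono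
        fun w k1 k2 => (k1 k2).elim
  have h2 : ∀ᶠ w in 𝓝 (y : M.W), ∀ i ∈ S, e w i = 0 → M.val (t i) w = 0 :=
    (eventually_all_finset S).2 fun i hi =>
      hz i (Finset.mem_filter.1 hi).2.1 (Finset.mem_filter.1 hi).2.2
  obtain ⟨b, hb, hab⟩ := lc.red y P p hp _ ha (by
    filter_upwards [hpE, h1, h2, e.open_source.mem_nhds he.2] with w k1 k2 k3 k4 k5
    obtain ⟨l, hl⟩ := k1 k5
    obtain ⟨i, k6, k7⟩ := (hE.snc y l w k4).1 hl
    have hi : i ∈ S := Finset.mem_filter.2 ⟨Finset.mem_univ _, ⟨l, k6⟩, k2 i k7⟩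
    exact Finset.prod_eq_zero hi (k3 i hi k7))
  have hp0 := Bert.Gn.ne hp
  have hT0 : ∏ i ∈ S, t i ≠ 0 := Finset.prod_ne_zero_iff.2 fun i _ => ht0 i
  have hq : (∏ i ∈ S, t i) / p ∈ M.O y := M.mem_O_of hb (by
    filter_upwards [M.at_pt (M.val_div (∏ i ∈ S, t i) p) y, M.at_pt (M.val_prod S t) y,
      gen_of_nhds hab, M.at_pt (M.val_ne hp0) y] with w k1 k2 k3 k4
    rw [k1, k2, k3, mul_div_cancel_left₀ _ k4])
  have h3 := Bert.ord_nonneg ⟨p, hp⟩ hq
  rw [P297Z.Pl.ord_div P hT0 hp0, hp.ord] at h3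
  obtain ⟨i, hi⟩ := ord_pos P S t ht0 (by omega)
  exact ⟨i, Bert.gn_of_fderiv lc ⟨p, hp⟩ (ht i) hi he (hne i)⟩

end Vale.Agent.P277Z.Hl
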