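import Vale.Agent.P277Z.Hl.Defs
import Vale.Agent.P277Z.Hir.MSk

/-!
# P277Z, block HIRL: principalization on a manifold
-/

set_option linter.all false

open scoped Manifold ContDiff Topology
open Set Filter
open Vale.Agent.P272.K (Cm Chart At cHess)
open Vale.Agent.P277Z.Hir (Cpb)

noncomputable section

namespace Vale.Agent.P277Z.Hl

open Lo

/-- Local families of holomorphic functions on the open set `O` which differ by units. -/
structure Dat (n : ℕ) (W : Type) [TopologicalSpace W] [ChartedSpace (Cm n) W] where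
  O : Set W
  isOpen : IsOpen O
  Γ : Type
  U : Γ → Set W
  opn : ∀ γ, IsOpen (U γ)
  κ : Type
  [fin : Fintype κ]
  f : Γ → κ → W → ℂ
  hol : ∀ γ k, ∀ x ∈ O, x ∈ U γ → Hol n (f γ k) x
  chg : ∀ γ γ', ∀ x ∈ O, x ∈ U γ → x ∈ U γ' → ∃ g : W → ℂ, ContinuousAt g x ∧ g x ≠ 0 ∧
    ∀ᶠ y in 𝓝 x, ∀ k, f γ k y = g y * f γ' k y
  nz : ∀ x ∈ O, ∃ γ k, x ∈ U γ ∧ Nz (f γ k) x

attribute [instance] Dat.fin

variable {n : ℕ} {W : Type} [TopologicalSpace W] [ChartedSpace (Cm n) W]

/-- The bad set. -/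
def Dat.Z (D : Dat n W) : Set W := {x | ∀ γ k, x ∈ D.O → x ∈ D.U γ → D.f γ k x = 0}

theorem Dat.closed (D : Dat n W) : IsClosed D.Z := by
  refine isOpen_compl_iff.1 (isOpen_iff_mem_nhds.2 fun x hx => ?_)
  simp only [Dat.Z, mem_compl_iff, mem_setOf_eq, not_forall] at hx
  obtain ⟨γ, k, h1, h2, h3⟩ := hx
  filter_upwards [D.isOpen.mem_nhds h1, (D.opn γ).mem_nhds h2, hol_ne (D.hol γ k x h1 h2) h3]
    with y a b c h using c (h γ k a b)

theorem Dat.mem_Z (D : Dat n W) {γ : D.Γ} {x : W} (h1 : x ∈ D.O) (h2 : x ∈ D.U γ) :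
    x ∈ D.Z ↔ ∀ k, D.f γ k x = 0 := by
  refine ⟨fun h k => h γ k h1 h2, fun h γ' k _ h3 => ?_⟩
  obtain ⟨g, -, -, e⟩ := D.chg γ' γ x h1 h3 h2
  rw [e.self_of_nhds k, h k, mul_zero]

theorem Dat.thin (D : Dat n W) {x : W} (h : x ∈ D.O) : Thin n D.Z x := by
  obtain ⟨γ, k, h1, h2⟩ := D.nz x h
  refine ⟨_, D.hol γ k x h h1, h2, ?_⟩
  filter_upwards [D.isOpen.mem_nhds h, (D.opn γ).mem_nhds h1] with y a b c using c γ k a b

/-- The output of the principalization. -/
structure Rz (D : Dat n W) (F : Set W) where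
  Y : Type
  [top : TopologicalSpace Y]
  [t2 : T2Space Y]
  [sc : SecondCountableTopology Y]
  [cs : ChartedSpace (Cm n) Y]
  [mf : IsManifold 𝓘(ℂ, Cm n) ω Y]
  π : Y → W
  O : Set W
  sub : F ⊆ O
  le : O ⊆ D.O
  bl : Bl n π O D.Z
  r : ℕ
  E : Fin r → Set Y
  lab : Y → Fin r → Option (Fin n)
  sn : Sn n E lab
  bad : ∀ y, π y ∈ D.Z ↔ ∃ l, y ∈ E l
  c : Fin r → ℚ
  c0 : ∀ l, 0 < c l
  v : Y → ℝ
  pos : ∀ y, PosF π E lab c v y
  prin : ∀ y γ, π y ∈ D.U γ → ∃ k₀, ∀ k,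
    Dvd n (fun z => D.f γ k₀ (π z)) (fun z => D.f γ k (π z)) y

attribute [instance] Rz.top Rz.t2 Rz.sc Rz.cs Rz.mf

theorem cpb_unit {X κ : Type} [TopologicalSpace X] [Fintype κ] {x : X} {a b : κ → X → ℂ}
    {g : X → ℂ} (hg : ContinuousAt g x) (h0 : g x ≠ 0)
    (h : ∀ᶠ y in 𝓝 x, ∀ k, a k y = g y * b k y) :
    Cpb (𝓝 x) (fun y => ∑ k, ‖a k y‖) fun y => ∑ k, ‖b k y‖ := by
  have p : 0 < ‖g x‖ := norm_pos_iff.2 h0
  refine ⟨max (‖g x‖ + 1) (2 / ‖g x‖), lt_max_of_lt_left (by linarith), ?_⟩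
  filter_upwards [h, hg.norm.eventually (gt_mem_nhds (lt_add_one ‖g x‖)),
    hg.norm.eventually (lt_mem_nhds (half_lt_self p))] with y h1 h2 h3
  have e : ∑ k, ‖a k y‖ = ‖g y‖ * ∑ k, ‖b k y‖ := by
    simp only [h1, norm_mul, Finset.mul_sum]
  have s : 0 ≤ ∑ k, ‖b k y‖ := Finset.sum_nonneg fun _ _ => norm_nonneg _
  rw [e]
  refine ⟨mul_le_mul_of_nonneg_right (h2.le.trans (le_max_left _ _)) s, ?_⟩
  rw [← mul_assoc]
  refine le_mul_of_one_le_left s ?_
  calc 1 = 2 / ‖g x‖ * (‖g x‖ / 2) := by field_simp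
    _ ≤ _ := mul_le_mul (le_max_right _ _) h3.le (by positivity)
      (le_max_of_le_left (by linarith))

variable [T2Space W] [IsManifold 𝓘(ℂ, Cm n) ω W]

/-- Holomorphic functions on an open subset. -/
def HolS (n : ℕ) [ChartedSpace (Cm n) W] (O : Set W) (f : O → ℂ) (x : O) : Prop :=
  ∃ g : W → ℂ, Hol n g x ∧ ∀ᶠ y in 𝓝 x, f y = g y

theorem ev_val {O : Set W} (hO : IsOpen O) {x : O} {p : W → Prop} :
    (∀ᶠ y : O in 𝓝 x, p y) ↔ ∀ᶠ y in 𝓝 (x : W), p y := by
  rw [← hO.isOpenEmbedding_subtypeVal.map_nhds_eq x, eventually_map]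

/-- The base of the resolution. -/
def Dat.base (D : Dat n W) : Hir.Base where
  X := D.O
  lc := by
    have : LocallyCompactSpace W := ChartedSpace.locallyCompactSpace (Cm n) W
    exact D.isOpen.locallyCompactSpace
  Hol := HolS n D.O
  comp := fun x ι _ g G f h1 h2 h3 => by
    choose a ha hb using h1
    have hc : ∀ᶠ y : D.O in 𝓝 x, g y = fun l => a l y :=
      (eventually_all.2 hb).mono fun y h => funext h
    refine ⟨fun y => G fun l => a l y, fun e he => ?_, ?_⟩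
    · have k : AnalyticAt ℂ G (fun l => a l (e.symm (e x))) := by
        rwa [e.left_inv he.2, ← hc.self_of_nhds]
      exact k.comp' (f := fun z l => a l (e.symm z)) (analyticAt_pi_iff.2 fun l => ha l e he)
    · filter_upwards [h3, hc] with y k1 k2
      rw [k1, k2]
  cont := fun f x ⟨g, h1, h2⟩ =>
    ((hol_cont h1).comp continuousAt_subtype_val).congr (h2.mono fun _ => Eq.symm)
  ev := fun f x ⟨g, h1, h2⟩ => by
    filter_upwards [continuousAt_subtype_val.eventually h1.near, h2.eventually_nhds] with y a b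
      using ⟨g, a, b⟩
  Bad := Subtype.val ⁻¹' D.Z
  closed := D.closed.preimage continuous_subtype_val
  Γ := D.Γ
  XO γ := Subtype.val ⁻¹' D.U γ
  isOpen γ := (D.opn γ).preimage continuous_subtype_val
  cover x := let ⟨γ, _, h, _⟩ := D.nz x x.2; ⟨γ, h⟩
  m _ := Fintype.card D.κ
  f γ k x := D.f γ ((Fintype.equivFin D.κ).symm k) x
  hol γ k x hx := ⟨_, D.hol γ _ x x.2 hx, .of_forall fun _ => rfl⟩
  zero γ x hx := (D.mem_Z x.2 hx).trans ⟨fun h _ => h _, fun h k => by
    simpa using h (Fintype.equivFin D.κ k)⟩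
  cpb γ γ' x h1 h2 := by
    obtain ⟨g, k1, k2, k3⟩ := D.chg γ γ' x x.2 h1 h2
    exact cpb_unit (g := fun y : D.O => g y) (k1.comp continuousAt_subtype_val) k2
      ((continuousAt_subtype_val.eventually k3).mono fun y h k => h _)

theorem Dat.reg (D : Dat n W) (x : D.O) : D.base.Reg n x := by
  set e := chartAt (Cm n) (x : W)
  refine ⟨Subtype.val ⁻¹' e.source, e.target ∩ e.symm ⁻¹' D.O, Fin.elim0, fun y : D.O => e y,
    mem_chart_source _ _, e.open_source.preimage continuous_subtype_val,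
    e.isOpen_inter_preimage_symm D.isOpen, fun i => i.elim0, ?_, ?_, fun y hy f => ?_⟩
  · ext z
    refine ⟨?_, fun ⟨⟨h1, h2⟩, _⟩ => ⟨⟨_, h2⟩, e.map_target h1, e.right_inv h1⟩⟩
    rintro ⟨y, hy, rfl⟩
    exact ⟨⟨e.map_source hy, by simpa [e.left_inv hy] using y.2⟩, fun i => i.elim0⟩
  · have h1 := e.isOpenEmbedding_restrict.isEmbedding
    have h2 : Topology.IsEmbedding fun y : (Subtype.val ⁻¹' e.source : Set D.O) =>
        (⟨y.1.1, y.2⟩ : e.source) :=
      Topology.IsEmbedding.of_comp (g := Subtype.val) (by fun_prop) continuous_subtype_val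
        ((Topology.IsEmbedding.subtypeVal (p := (· ∈ D.O))).comp
          (Topology.IsEmbedding.subtypeVal (p := (· ∈ (Subtype.val ⁻¹' e.source : Set D.O)))))
    exact h1.comp h2
  · change D.O at y
    have he : At e (y : W) := ⟨chart_mem_atlas _ _, hy⟩
    refine ⟨fun ⟨g, h1, h2⟩ => ⟨fun z => g (e.symm z), h1 e he, ?_⟩, fun ⟨g, h1, h2⟩ =>
      ⟨fun w => g (e w), Hol.of_chart he (h1.congr ?_), h2⟩⟩
    · filter_upwards [h2, continuousAt_subtype_val.eventually (e.open_source.mem_nhds hy)]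
        with w k1 k2
      exact k1.trans (congrArg g (e.left_inv k2).symm)
    · filter_upwards [e.open_target.mem_nhds (e.map_source hy)] with z hz
      simp [e.right_inv hz]

theorem Dat.sp (D : Dat n W) : D.base.Sp n where
  model x := let ⟨V, Ω, h, φ, k⟩ := D.reg x; ⟨n, 0, V, Ω, h, φ, k⟩
  reg x _ := D.reg x
  dense x := by
    obtain ⟨τ, h1, h2, h3⟩ := D.thin x.2
    refine mem_closure_iff_frequently.2 fun h => h2 ?_
    have k : ∀ᶠ y : D.O in 𝓝 x, (y : W) ∈ D.Z := h.mono fun _ => not_not.1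
    filter_upwards [(ev_val D.isOpen).1 k, h3] with y a b using b a

theorem hol_chart {Y : Type} [TopologicalSpace Y] [ChartedSpace (Cm n) Y]
    [IsManifold 𝓘(ℂ, Cm n) ω Y] {a : Y → ℂ} {y : Y} :
    Hol n a y ↔ AnalyticAt ℂ (fun z => a ((chartAt (Cm n) y).symm z)) (chartAt (Cm n) y y) :=
  ⟨fun h => h _ (at_chartAt y), Hol.of_chart (at_chartAt y)⟩

theorem exists_rz (hH : Hir.StMain) (hP : PRIN) (hn : 1 ≤ n) (D : Dat n W) {F : Set W}
    (hF : IsCompact F) (hO : F ⊆ D.O) : Nonempty (Rz D F) := by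
  have hK : IsCompact (Subtype.val ⁻¹' F : Set D.O) :=
    Topology.IsEmbedding.subtypeVal.isInducing.isCompact_preimage' hF (by simpa using hO)
  obtain ⟨o⟩ := hH D.base n _ hn D.sp hK
  let := o.top
  let := o.t2
  let := o.sc
  let := o.cs
  let := o.mf
  let π : o.Y → W := fun y => Subtype.val (p := (· ∈ D.O)) (o.π y)
  have hπ : Continuous π := continuous_subtype_val.comp o.cont
  have hh : ∀ y g, Hol n g (π y) → Hol n (fun z => g (π z)) y := fun y g h =>
    hol_chart.2 (o.hol y (fun w : D.O => g w) ⟨g, h, .of_forall fun _ => rfl⟩)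
  refine ⟨⟨o.Y, π, Subtype.val '' o.O, fun x hx => ⟨⟨x, hO hx⟩, o.sub hx, rfl⟩,
    by rintro _ ⟨x, -, rfl⟩; exact x.2, ⟨hπ, D.isOpen.isOpenMap_subtype_val _ o.isOpen, D.closed,
    fun y => ⟨_, o.maps y, rfl⟩, fun L h1 h2 => ?_, ?_, o.dense, hh, fun y y' h1 h2 =>
    o.one y y' h1 (Subtype.ext h2), fun y hy => ?_⟩, o.r, o.G, o.lab, ⟨o.inj, o.snc⟩, o.bad,
    o.c, o.c0, o.v, fun y => ?_, fun y γ hy => ?_⟩⟩
  · refine o.proper (Subtype.val ⁻¹' L) (fun x hx => ?_)
      (Topology.IsEmbedding.subtypeVal.isInducing.isCompact_preimage' h2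
        (h1.trans (image_subset_range _ _)))
    obtain ⟨x', k1, k2⟩ := h1 hx
    rwa [← Subtype.ext k2]
  · rintro _ ⟨x, h1, rfl⟩ h2
    obtain ⟨y, rfl⟩ := o.surj x h1 h2
    exact ⟨y, rfl⟩
  · classical
    obtain ⟨σ, h1, h2, h3, h4⟩ := o.sec y hy
    let σ' : W → o.Y := fun w => if h : w ∈ D.O then σ ⟨w, h⟩ else y
    have e : ∀ w : D.O, σ' w = σ w := fun w => dif_pos w.2
    have c : ContinuousAt σ' (π y) := by
      rw [← D.isOpen.isOpenEmbedding_subtypeVal.continuousAt_iff (x := o.π y)]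
      exact h1.congr (.of_forall fun w => (e w).symm)
    have e2 : σ' (π y) = y := (e _).trans h2
    refine ⟨σ', c, e2, (ev_val D.isOpen (x := o.π y)).1 (h3.mono fun w h => ?_), fun a ha => ?_⟩
    · exact (congrArg π (e w)).trans (congrArg Subtype.val h)
    · obtain ⟨g, k1, k2⟩ := D.base.comp (o.π y) (Fin n) (fun w => chartAt (Cm n) y (σ w))
        (fun z => a ((chartAt (Cm n) y).symm z)) (fun w => a (σ w)) h4
        (by rw [h2]; exact hol_chart.1 ha) (by
          have k := h1.eventually (by rw [h2]; exact chart_source_mem_nhds (Cm n) y)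
          filter_upwards [k] with w hw
          rw [(chartAt (Cm n) y).left_inv hw])
      exact k1.congr ((ev_val D.isOpen (x := o.π y)).1 (k2.mono fun w h => by rw [e w, ← h]))
  · obtain ⟨m, g, ε, U, h, k1, k2, k3, k4, k5, k6, k7⟩ := o.pos y
    choose a ha hb using k1
    refine ⟨m, a, ε, U, h, ha, k2, k3, k4, k5, k6, ?_⟩
    filter_upwards [k7, o.cont.continuousAt.eventually (eventually_all.2 hb)] with y' p1 p2 p3
    rw [p1 p3]
    simp only [p2]
    rfl
  · obtain ⟨e, -, C, h1, h2⟩ := o.prin y γ hy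
    have he := at_chartAt (n := n) y
    obtain ⟨k₀, hk⟩ := hP n n D.κ (fun k z => D.f γ k (π ((chartAt (Cm n) y).symm z)))
      (chartAt (Cm n) y y) some (fun i => e i) (fun l l' i a b => by simp_all)
      (fun _ => Nat.cast_nonneg _)
      (fun k => hol_chart.1 (hh y _ (D.hol γ k _ (o.π y).2 hy))) ⟨C, h1, by
        filter_upwards [(tendsto_symm he).eventually h2,
          (chartAt (Cm n) y).open_target.mem_nhds (mem_chart_target _ y)] with z p1 p2
        rw [(chartAt (Cm n) y).right_inv p2] at p1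
        have q := (Fintype.equivFin D.κ).symm.sum_comp
          fun k => ‖D.f γ k (π ((chartAt (Cm n) y).symm z))‖
        simp only [Option.elim, Real.rpow_natCast, ← q]
        simp only [norm_prod, norm_pow] at p1
        exact p1⟩
    refine ⟨k₀, fun k => ?_⟩
    obtain ⟨c, p1, p2⟩ := hk k
    refine ⟨fun w => c (chartAt (Cm n) y w), hol_chart.2 (p1.congr ?_), (ev_chart he).1 ?_⟩
    · filter_upwards [(chartAt (Cm n) y).open_target.mem_nhds (mem_chart_target _ y)] with z hz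
      rw [(chartAt (Cm n) y).right_inv hz]
    · filter_upwards [p2, (chartAt (Cm n) y).open_target.mem_nhds (mem_chart_target _ y)]
        with z h hz
      rw [(chartAt (Cm n) y).right_inv hz, h]

end Vale.Agent.P277Z.Hl
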