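import Vale.Agent.P277Z.Hl.Mdl
import Vale.Agent.P277Z.Hl.Rz
import Vale.Agent.P277Z.Hl.Prin
import Vale.Agent.P277Z.Hl.Kco
import Vale.Agent.P277Z.Hl.Exc

/-!
# P277Z, block HIRL: log resolutions of models
-/

set_option linter.all false

open scoped Manifold ContDiff Topology
open Set Filter
open Vale.Agent.P272.K (Cm Chart At cHess)
open Vale.Agent.P297 (Place)
open Vale.Agent.P297Z
open Vale.Agent.P285.H281.FD (Bd)

noncomputable section

namespace Vale.Agent.P277Z.Hl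

open Lo Bi

variable {n N : ℕ} {K : Type} [Field K] [Algebra ℂ K] {M : Mdl n N K}

theorem exists_dat (hL : Loc M) (hB : Lbd M) {κ : Type} [Fintype κ] [Nonempty κ] (H : κ → K)
    (h0 : ∀ k, H k ≠ 0) (T : Finset (Place K))
    (hT : ∀ k P, M.Pr P → P ∉ T → P.ord (H k) = 0) :
    ∃ (D : Dat n M.W) (e : D.κ ≃ κ), M.F ⊆ D.O ∧ ∀ x : M.F, ∃ γ, (x : M.W) ∈ D.U γ ∧
      ∃ (t : K) (u : M.W → ℂ), Hol n u x ∧ u x ≠ 0 ∧ t ≠ 0 ∧ ∀ k, H (e k) * t ∈ M.O x ∧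
        (∀ᶠ y in 𝓝 (x : M.W), D.f γ k y = u y * M.val (H (e k) * t) y) ∧
        ∀ P ∈ T, M.On x P → 0 < P.ord (H (e k) * t) := by
  classical
  obtain ⟨b, hb⟩ := (Set.finite_range fun p : κ × T => 1 - p.2.1.ord (H p.1)).bddAbove
  have hm : ∀ k, ∀ P ∈ T, 1 ≤ P.ord (H k) + b.toNat := fun k P hP => by
    have h1 : 1 - P.ord (H k) ≤ b := hb ⟨(k, ⟨P, hP⟩), rfl⟩
    have h2 := Int.self_le_toNat b
    omega
  let D : Div K := Finsupp.indicator T fun _ _ => ((b.toNat : ℤ) : ℝ)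
  have d1 : ∀ P ∈ T, D P = ((b.toNat : ℤ) : ℝ) := fun P hP => Finsupp.indicator_of_mem hP _
  have d0 : ∀ P ∉ T, D P = 0 := fun P hP => Finsupp.indicator_of_notMem hP _
  obtain ⟨L, s, hR⟩ := hB.ex D fun P => by
    by_cases h : P ∈ T
    · exact ⟨_, d1 P h⟩
    · exact ⟨0, by simp [d0 P h]⟩
  have hH : ∀ k P, M.Pr P → 0 ≤ (P.ord (H k) : ℝ) + D P := fun k P hP => by
    by_cases h : P ∈ T
    · rw [d1 P h]
      exact_mod_cast zero_le_one.trans (hm k P h)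
    · simp [d0 P h, hT k P hP h]
  choose σ hσ hM using fun k => hB.sec L D s (H k) hR (Or.inr (hH k))
  have key : ∀ (x : M.F) i, (x : M.W) ∈ L.U i → ∃ (t : K) (u : M.W → ℂ), Hol n u x ∧ u x ≠ 0 ∧
      t ≠ 0 ∧ ∀ k, H k * t ∈ M.O x ∧ (∀ᶠ y in 𝓝 (x : M.W), σ k i y = u y * M.val (H k * t) y) ∧
        ∀ P ∈ T, M.On x P → 0 < P.ord (H k * t) := fun x i hi => by
    obtain ⟨t, u, t0, h1, h2, h3, h4⟩ := hR.loc x i hi
    refine ⟨t, u, h2, h3, t0, fun k => ?_⟩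
    have p : H k * t ∈ M.O x := hL.mem x _ fun P hP => by
      have := hH k P ⟨x, hP⟩
      rw [h1 P hP] at this
      rw [Pl.ord_mul P (h0 k) t0]
      exact_mod_cast this
    refine ⟨p, Lo.hol_eq_of_gen (((hσ k).self_of_nhdsSet _ x.2 i hi).1) (hol_mul h2 p) ?_,
      fun P hP h => ?_⟩
    · filter_upwards [hM k x i hi, h4, M.at_pt (M.val_mul (H k) t) x] with y a b c
      rw [a, b, c]; ring
    · have q : (P.ord t : ℝ) = ((b.toNat : ℤ) : ℝ) := (h1 P h).symm.trans (d1 P hP)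
      have := hm k P hP
      rw [Pl.ord_mul P (h0 k) t0, Int.cast_injective q]
      omega
  let S : Set M.W := {y | (∀ k i, y ∈ L.U i → Hol n (σ k i) y ∧
    ∀ j, y ∈ L.U j → σ k i y = L.g i j y * σ k j y) ∧ ∃ i k, y ∈ L.U i ∧ Nz (σ k i) y}
  refine ⟨⟨interior S, isOpen_interior, L.ι, L.U, hR.lb.isOpen, κ, fun i k => σ k i,
    fun i k x h1 h2 => ((interior_subset h1).1 k i h2).1, fun i j x h1 h2 h3 =>
    ⟨L.g i j, hol_cont (hR.lb.holo i j x h2 h3), hR.lb.ne_zero i j x h2 h3, ?_⟩,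
    fun x h => (interior_subset h).2⟩, Equiv.refl κ, fun x hx => ?_, fun x => ?_⟩
  · filter_upwards [mem_interior_iff_mem_nhds.1 h1, (hR.lb.isOpen i).mem_nhds h2,
      (hR.lb.isOpen j).mem_nhds h3] with y a b c k using (a.1 k i b).2 j c
  · obtain ⟨i, hi⟩ := hR.lb.cover x hx
    obtain ⟨k⟩ := ‹Nonempty κ›
    obtain ⟨t, u, h1, h2, t0, h3⟩ := key ⟨x, hx⟩ i hi
    have z : ¬∀ᶠ y in 𝓝 x, σ k i y = 0 := fun h => M.not_zero (x := ⟨x, hx⟩)
      (mul_ne_zero (h0 k) t0) (by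
        filter_upwards [h, (h3 k).2.1, hol_ne h1 h2] with y a b c
        exact (mul_eq_zero.1 (b.symm.trans a)).resolve_left c)
    refine mem_interior_iff_mem_nhds.2 ?_
    filter_upwards [eventually_all.2 fun k => (hσ k).filter_mono (nhds_le_nhdsSet hx),
      (hR.lb.isOpen i).mem_nhds hi,
      (hol_ident ((hσ k).self_of_nhdsSet _ hx i hi).1).resolve_left z] with y a b c
      using ⟨a, i, k, b, c⟩
  · obtain ⟨i, hi⟩ := hR.lb.cover x x.2
    exact ⟨i, hi, key x i hi⟩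

/-- The identity as a modification. -/
def modRefl (M : Mdl n N K) : Mod M M where
  g := id
  cont _ _ := continuousAt_id
  hol _ _ _ h := h
  img := image_id _
  dom _ _ := tendsto_id
  base := .of_forall fun _ => rfl
  val _ := .of_forall fun _ => rfl

theorem not_on {M : Mdl 0 N K} (x : M.F) (P : Place K) : ¬ M.On x P := fun ⟨t, ht⟩ => by
  refine M.not_zero (x := x) (gn_ne ht) ?_
  filter_upwards [chart_source_mem_nhds (Cm 0) (x : M.W)] with y hy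
  rw [(chartAt (Cm 0) (x : M.W)).injOn hy (mem_chart_source _ _) (Subsingleton.elim _ _), ht.van]

theorem hirl_of (hH : Hir.StMain) (hP : POSB) (hG : GGF) (hL : LOC n) (hC : COP n) (hS : SEC n)
    (hB : LBD n) : HIRL n := by
  intro N K _ _ M hM T k s hT hs
  classical
  have lc : Loc M := hL N K M hM
  rcases Nat.eq_zero_or_pos n with rfl | hn
  · refine ⟨M, ⟨modRefl M⟩, hM, fun y => ⟨fun j => ?_, ?_⟩⟩
    · obtain ⟨f, h1, h2⟩ := hs j
      exact ⟨f, h1, h2, fun h _ => lc.mem y _ fun P hP => (not_on y P hP).elim⟩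
    · obtain ⟨t, ht⟩ := lc.coord y
      exact ⟨t, ht, fun P hP => (not_on y P hP).elim⟩
  let κ := ∀ j, (s j).erase 0
  have : Nonempty κ := ⟨fun j => ⟨(hs j).choose, Finset.mem_erase.2
    ⟨(hs j).choose_spec.2, (hs j).choose_spec.1⟩⟩⟩
  have fT : (T ∪ ⋃ j, ⋃ h ∈ s j, {P | M.Pr P ∧ P.ord h ≠ 0}).Finite :=
    hT.union (finite_iUnion fun j => (s j).finite_toSet.biUnion fun h _ => lc.fin h)
  have mT : ∀ j, ∀ h ∈ s j, ∀ P, M.Pr P → P.ord h ≠ 0 → P ∈ fT.toFinset := fun j h h1 P h2 h3 =>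
    fT.mem_toFinset.2 (Or.inr (mem_iUnion.2 ⟨j, mem_biUnion h1 ⟨h2, h3⟩⟩))
  have n0 : ∀ (τ : κ) j, (τ j : K) ≠ 0 := fun τ j => (Finset.mem_erase.1 (τ j).2).1
  have H0 : ∀ τ : κ, ∏ j, (τ j : K) ≠ 0 := fun τ => Finset.prod_ne_zero_iff.2 fun j _ => n0 τ j
  obtain ⟨D, e, hO, hD⟩ := exists_dat lc (hB N K M hM) (fun τ : κ => ∏ j, (τ j : K)) H0
    fT.toFinset fun τ P h1 h2 => by
      rw [ord_prod P _ _ fun j _ => n0 τ j]
      exact Finset.sum_eq_zero fun j _ => by_contra fun h =>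
        h2 (mT j _ (Finset.mem_erase.1 (τ j).2).2 P h1 h)
  obtain ⟨R⟩ := exists_rz hH prin hn D M.cpt hO
  let u : Up M.toGeo := ⟨R.Y, R.π, R.O, D.Z, R.bl, R.sub, fun x hx => D.thin (hO hx)⟩
  have og := ogAll n R.Y R.r R.E R.lab R.sn
  obtain ⟨A, hA⟩ := M.proj_iff.1 hM
  obtain ⟨L, l1, l2⟩ := hP n N u.geo M.toGeo R.π A R.r R.E R.lab R.c R.v R.bl.cont R.bl.hol
    (fun _ h => h) hA R.sn og R.c0 fun y _ => R.pos y
  have dn := u.dn hG l1 l2
  have pj : (u.mdl dn).Proj := ⟨L, l1⟩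
  refine ⟨u.mdl dn, ⟨u.mod dn⟩, pj, fun y => ?_⟩
  let x : M.F := ⟨R.π y, y.2⟩
  have le : ∀ f ∈ M.O x, f ∈ (u.mdl dn).O y ∧
      ∀ᶠ z in 𝓝 (y : R.Y), (u.mdl dn).val f z = M.val f (R.π z) := fun f hf =>
    ⟨(u.mdl dn).mem_O_of (R.bl.hol y _ hf) ((u.mdl dn).at_pt (u.val_gen f) y),
      (u.mdl dn).val_eq y.2 (R.bl.hol y _ hf) ((u.mdl dn).at_pt (u.val_gen f) y)⟩
  obtain ⟨γ, hγ, t, w, w1, w2, t0, ht⟩ := hD x
  have cπ : ContinuousAt R.π y := R.bl.cont.continuousAt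
  have hv : ∀ τ, ∀ᶠ z in 𝓝 (y : R.Y), D.f γ τ (R.π z) =
      w (R.π z) * (u.mdl dn).val ((∏ j, (e τ j : K)) * t) z := fun τ => by
    filter_upwards [cπ.eventually (ht τ).2.1, (le _ (ht τ).1).2] with z a b
    rw [a, b]
  refine ⟨fun j => ?_, ?_⟩
  · obtain ⟨τ₀, h⟩ := R.prin y γ hγ
    have h1 : ∀ τ, (∏ j, (e τ j : K)) / ∏ j, (e τ₀ j : K) ∈ (u.mdl dn).O y := fun τ => by
      obtain ⟨c, c1, c2⟩ := h τ
      rw [← mul_div_mul_right _ _ t0]
      refine (u.mdl dn).mem_O_of c1 ?_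
      filter_upwards [(u.mdl dn).at_pt ((u.mdl dn).val_div _ _) y, gen_of_nhds c2,
        gen_of_nhds (hv τ), gen_of_nhds (hv τ₀), gen_of_nhds (cπ.eventually (hol_ne w1 w2)),
        (u.mdl dn).at_pt ((u.mdl dn).val_ne (mul_ne_zero (H0 (e τ₀)) t0)) y] with z a b c d f g
      rw [a, div_eq_iff g]
      refine mul_left_cancel₀ f ?_
      rw [← c, b, d]; ring
    refine ⟨e τ₀ j, (Finset.mem_erase.1 (e τ₀ j).2).2, n0 _ j, fun g hg => ?_⟩
    by_cases g0 : g = 0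
    · rw [g0, zero_div]; exact zero_mem _
    have h2 := h1 (e.symm (Function.update (e τ₀) j ⟨g, Finset.mem_erase.2 ⟨g0, hg⟩⟩))
    rw [e.apply_symm_apply, ← Finset.mul_prod_erase _ _ (Finset.mem_univ j),
      ← Finset.mul_prod_erase _ _ (Finset.mem_univ j), Function.update_self,
      Finset.prod_congr rfl fun i hi => by
        rw [Function.update_of_ne (Finset.mem_erase.1 hi).1],
      mul_div_mul_right _ _ (Finset.prod_ne_zero_iff.2 fun i _ => n0 _ i)] at h2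
    exact h2
  · obtain ⟨c, c1, c2⟩ := kco hL hS hB N K (u.mdl dn) pj R.r R.E R.lab R.sn og y
    refine ⟨c, c1, fun P ⟨p, hp⟩ h => c2 P p hp ?_⟩
    by_cases hP : M.Pr P
    · have m1 : P ∈ fT.toFinset := by
        rcases h with (h | h) | ⟨j, h | ⟨g, g1, g2⟩⟩
        · exact fT.mem_toFinset.2 (Or.inl h)
        · exact (h.2 hP).elim
        · obtain ⟨g, g1, g2⟩ := hs j
          exact mT j g g1 P hP (h g g1 g2).ne'
        · exact mT j g g1 P hP g2.ne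
      have on : M.On x P := on_of_ct lc hP fun f hf => hp.le f (le f hf).1
      filter_upwards [eventually_all.2 hv, eventually_all.2 fun τ => (u.mdl dn).nhds_mul
        (hp.dvd _ (le _ (ht τ).1).1 ((ht τ).2.2 P m1 on)) hp.mem,
        cπ.eventually ((D.opn γ).mem_nhds hγ)] with z a b d f
      refine (R.bad z).1 ((D.mem_Z (R.le (R.bl.maps z)) d).2 fun τ => ?_)
      rw [a τ, ← div_mul_cancel₀ (_ * t) (gn_ne hp), b τ, f, mul_zero, mul_zero]
    · exact (exc n N K _ M (u.mod dn) R.O D.Z R.bl lc (hC N K M hM) y P p hp hP).mono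
        fun z a b => (R.bad z).1 (a b)

end Vale.Agent.P277Z.Hl
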