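import Vale.Agent.P277Z.Hl.Defs
import Vale.Agent.P277Z.Luf.Hol
import Vale.Agent.P277Z.Hir.IA

/-!
# P277Z, block HIRL: the line bundles of a divisor and of the denominators
-/

set_option linter.all false

open scoped Manifold ContDiff Topology
open Set Filter
open Vale.Agent.P272.K (Cm Chart At cHess)
open Vale.Agent.P285.H281.FD (Bd)

noncomputable section

namespace Vale.Agent.P277Z.Hl

variable {n : ℕ} {Y : Type} [TopologicalSpace Y] [ChartedSpace (Cm n) Y]
  [IsManifold 𝓘(ℂ, Cm n) ω Y] {a b c : Y → ℂ} {z : Y}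

/-- The quotient of associated germs. -/
theorem quot (hb : Hol n b z) (h0 : Nz b z) (h1 : Dvd n a b z) (h2 : Dvd n b a z) :
    Hol n (cn n fun y => a y / b y) z ∧ cn n (fun y => a y / b y) z ≠ 0 ∧
      ∀ᶠ y in 𝓝 z, a y = cn n (fun y => a y / b y) y * b y := by
  obtain ⟨c', hc', k'⟩ := h1
  obtain ⟨c, hc, k⟩ := h2
  have g : ∀ᶠ y in gen {z}, a y / b y = c y := by
    filter_upwards [gen_of_nhds k, h0.gen hb] with y e1 e2
    rw [e1, mul_div_cancel_right₀ _ e2]
  have u : ∀ᶠ y in 𝓝 z, c' y * c y = 1 := by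
    refine Lo.hol_cancel (hc'.mul hc) (hol_const 1 z) hb h0 (gen_of_nhds ?_)
    filter_upwards [k, k'] with y e1 e2
    rw [mul_assoc, ← e1, ← e2, one_mul]
  refine ⟨cn_hol hc g, ?_, ?_⟩
  · rw [cn_at hc g]
    exact right_ne_zero_of_mul (u.self_of_nhds ▸ one_ne_zero)
  · filter_upwards [k, cn_eq hc g] with y e1 e2 using e2 ▸ e1

theorem quot_mul (hb : Hol n b z) (hc : Hol n c z) (b0 : Nz b z) (c0 : Nz c z) (h1 : Dvd n a b z)
    (h2 : Dvd n b a z) (h3 : Dvd n b c z) (h4 : Dvd n c b z) :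
    cn n (fun y => a y / b y) z * cn n (fun y => b y / c y) z = cn n (fun y => a y / c y) z := by
  obtain ⟨p1, -, p2⟩ := quot hb b0 h1 h2
  obtain ⟨q1, -, q2⟩ := quot hc c0 h3 h4
  obtain ⟨r1, -, r2⟩ := quot hc c0 (h1.trans h3) (h4.trans h2)
  refine (Lo.hol_cancel (p1.mul q1) r1 hc c0 (gen_of_nhds ?_)).self_of_nhds
  filter_upwards [p2, q2, r2] with y e1 e2 e3
  rw [mul_assoc, ← e2, ← e1, ← e3]

theorem hol_coord {e : Chart n Y} (he : At e z) (i : Fin n) : Hol n (fun y => e y i) z :=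
  hol_comp he (f := fun u => u i) ((ContinuousLinearMap.proj i : Cm n →L[ℂ] ℂ).analyticAt _)

theorem nz_coord {e : Chart n Y} (he : At e z) (i : Fin n) : Nz (fun y => e y i) z := fun h => by
  have k : ∀ᶠ u in 𝓝 (e z), u i = 0 := by
    filter_upwards [(At.ev he).2 h, At.right he] with u h1 h2 using h2 ▸ h1
  have t : Tendsto (fun s : ℂ => Function.update (e z) i s) (𝓝 (e z i)) (𝓝 (e z)) := by
    have := (continuous_const.update i continuous_id :
      Continuous fun s : ℂ => Function.update (e z) i s).tendsto (e z i)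
    rwa [Function.update_eq_self] at this
  have k' : ∀ᶠ s in 𝓝 (e z i), s = (0 : ℂ) := by simpa using t.eventually k
  obtain ⟨s, h1, h2⟩ := ((k'.filter_mono (nhdsWithin_le_nhds (s := {e z i}ᶜ))).and
    self_mem_nhdsWithin).exists
  exact h2 (h1.trans k'.self_of_nhds.symm)

theorem red_coord {e : Chart n Y} (he : At e z) (i : Fin n) : Red n (fun y => e y i) z := by
  intro b hb h
  by_cases h0 : e z i = 0
  swap
  · exact Dvd.of_ne (hol_coord he i) h0 hb
  set l : Cm n →L[ℂ] ℂ := .proj i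
  obtain ⟨g, hg, k⟩ := Hir.IH.hadamard (l := l) (Pi.single i 1) h0 (hb e he)
  refine ⟨_, hol_comp he hg, (At.ev he).1 ?_⟩
  have k1 : ∀ᶠ u in 𝓝 (e z), u i = 0 → b (e.symm u) = 0 := by
    filter_upwards [(At.ev he).2 h, At.right he] with u h1 h2 h3 using h1 (h2.symm ▸ h3)
  filter_upwards [(Hir.IH.tendsto_pj (l := l) (Pi.single i 1) h0).eventually k1, At.right he]
    with u h1 h2
  have := k u
  rw [h1 (by simp [Hir.IH.pj, l]), sub_zero] at this
  rw [this, h2, mul_comm]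
  rfl

theorem ogAll : OG := by
  intro n Y _ _ _ _ r G lab S l
  have A : ∀ a : Y, ∀ z ∈ (chartAt (Cm n) a).source, At (chartAt (Cm n) a) z :=
    fun a z hz => ⟨chart_mem_atlas _ _, hz⟩
  have H : ∀ a : Y, ∀ z ∈ (chartAt (Cm n) a).source,
      Hol n (zt lab l a) z ∧ Nz (zt lab l a) z ∧ Red n (zt lab l a) z ∧
        (zt lab l a z = 0 ↔ z ∈ G l) := fun a z hz => by
    rw [S.snc a l z hz]
    unfold zt
    rcases lab a l with _ | i
    · exact ⟨hol_const 1 z, nz_of_ne one_ne_zero,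
        fun b hb _ => Dvd.of_ne (hol_const 1 z) one_ne_zero hb, by simp⟩
    · exact ⟨hol_coord (A a z hz) i, nz_coord (A a z hz) i, red_coord (A a z hz) i, by simp⟩
  have D : ∀ a b z : Y, z ∈ (chartAt (Cm n) a).source → z ∈ (chartAt (Cm n) b).source →
      Dvd n (zt lab l a) (zt lab l b) z := fun a b z ha hb => by
    refine (H a z ha).2.2.1 _ (H b z hb).1 ?_
    filter_upwards [(chartAt (Cm n) a).open_source.mem_nhds ha,
      (chartAt (Cm n) b).open_source.mem_nhds hb] with y h1 h2 h3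
      using (H b y h2).2.2.2.2 ((H a y h1).2.2.2.1 h3)
  have Q := fun a b z ha hb => quot (H b z hb).1 (H b z hb).2.1 (D a b z ha hb) (D b a z hb ha)
  exact ⟨fun a z h => (H a z h).1, fun a z h => (H a z h).2.1, fun a b z ha hb => (Q a b z ha hb).1,
    fun a b z ha hb => (Q a b z ha hb).2.1,
    fun a b z ha hb => (Q a b z ha hb).2.2.self_of_nhds, fun a b c z ha hb hc =>
      quot_mul (H b z hb).1 (H c z hc).1 (H b z hb).2.1 (H c z hc).2.1 (D a b z ha hb)
        (D b a z hb ha) (D b c z hb hc) (D c b z hc hb)⟩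

theorem den : DEN := by
  intro n N G a ha
  have E : ∀ x : G.F, ∃ u v : G.W → ℂ, ∀ᶠ z in 𝓝 (x : G.W), Hol n u z ∧ Hol n v z ∧ Nz v z ∧
      (∀ᶠ w in gen {z}, a w * v w = u w) ∧ Cop n u v z := fun x => by
    obtain ⟨u, v, hu, hv, h0, k⟩ := ha x x.2
    obtain ⟨d, u', v', hd, hu', hv', k'⟩ := (luf n G.W x).gcd u v hu hv h0
    have g := Nz.gen h0 hv
    have v0 : Nz v' x := nz_of_gen (by
      filter_upwards [g, gen_of_nhds k'] with y h1 h2 using right_ne_zero_of_mul (h2.2.1 ▸ h1))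
    have e : ∀ᶠ w in gen {(x : G.W)}, a w * v' w = u' w := by
      filter_upwards [g, gen_of_nhds k', k] with y h1 h2 h3
      refine mul_left_cancel₀ (left_ne_zero_of_mul (h2.2.1 ▸ h1)) ?_
      rw [← h2.1, ← h3, h2.2.1]
      ring
    refine ⟨u', v', ?_⟩
    filter_upwards [hu'.near, hv'.near, v0.near hv', gen_near e, k'] with y h1 h2 h3 h4 h5
      using ⟨h1, h2, h3, h4, h5.2.2⟩
  choose u v h using E
  set U : G.F → Set G.W := fun x => interior {z | Hol n (u x) z ∧ Hol n (v x) z ∧ Nz (v x) z ∧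
    (∀ᶠ w in gen {z}, a w * v x w = u x w) ∧ Cop n (u x) (v x) z}
  have H := fun i z (hz : z ∈ U i) => interior_subset hz
  have X : ∀ i j z, z ∈ U i → z ∈ U j → ∀ᶠ y in 𝓝 z, v j y * u i y = u j y * v i y :=
    fun i j z hi hj => by
      refine ((H j z hj).2.1.mul (H i z hi).1).eq_of_gen ((H j z hj).1.mul (H i z hi).2.1) ?_
      filter_upwards [(H i z hi).2.2.2.1, (H j z hj).2.2.2.1] with y h1 h2
      rw [← h1, ← h2]
      ring
  have D : ∀ i j z, z ∈ U i → z ∈ U j → Dvd n (v i) (v j) z := fun i j z hi hj =>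
    (H i z hi).2.2.2.2 _ (H j z hj).2.1 ⟨_, (H j z hj).1, X i j z hi hj⟩
  have Q := fun i j z hi hj =>
    quot (H i z hi).2.1 (H i z hi).2.2.1 (D j i z hj hi) (D i j z hi hj)
  refine ⟨⟨G.F, U, fun i j => cn n fun y => v j y / v i y⟩, u, v,
    ⟨fun _ => isOpen_interior, fun x hx => ⟨⟨x, hx⟩, mem_interior_iff_mem_nhds.2 (h ⟨x, hx⟩)⟩,
      fun i j z hi hj => (Q i j z hi hj).1, fun i j z hi hj => (Q i j z hi hj).2.1,
      fun i j k z hi hj hk => (mul_comm _ _).trans (quot_mul (H j z hj).2.1 (H i z hi).2.1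
        (H j z hj).2.2.1 (H i z hi).2.2.1 (D k j z hk hj) (D j k z hj hk) (D j i z hj hi)
        (D i j z hi hj))⟩,
    fun i z hi => ⟨(H i z hi).1, (H i z hi).2.1, (H i z hi).2.2.1, (H i z hi).2.2.2.1,
      fun j hj => ⟨?_, (mul_comm _ _).trans (Q i j z hi hj).2.2.self_of_nhds.symm⟩⟩⟩
  refine (Lo.hol_cancel ((H i z hi).1.mul (Q i j z hi hj).1) (H j z hj).1 (H i z hi).2.1
    (H i z hi).2.2.1 (gen_of_nhds ?_)).self_of_nhds
  filter_upwards [X i j z hi hj, (Q i j z hi hj).2.2] with y h1 h2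
  rw [← h1, mul_assoc, ← h2, mul_comm]

end Vale.Agent.P277Z.Hl
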