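import Vale.Agent.P277Z.Spec2
import Vale.Agent.P277Z.Lo.Base
import Vale.Agent.P277Z.Hir.Out

/-!
# P277Z, block HIRL: definitions and statements
-/

set_option linter.all false

open scoped Manifold ContDiff Topology
open Set Filter
open Vale.Agent.P272.K (Cm Chart At cHess)
open Vale.Agent.P297 (Place)
open Vale.Agent.P285.H281.FD (Bd)
open Vale.Agent.P284Z (Psh)
open Vale.Agent.P277Z.Hir (Cpb)

noncomputable section

namespace Vale.Agent.P277Z.Hl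

open Lo

section defs

variable (n : ℕ) {Y W : Type} [TopologicalSpace Y] [ChartedSpace (Cm n) Y] [TopologicalSpace W]
  [ChartedSpace (Cm n) W]

open Classical in
/-- The canonical values of a function which is given at generic points. -/
def cn (a : Y → ℂ) (y : Y) : ℂ :=
  if h : ∃ b, Hol n b y ∧ ∀ᶠ z in gen {y}, a z = b z then h.choose y else a y

variable {n} in
theorem cn_at {a b : Y → ℂ} {y : Y} (hb : Hol n b y) (h : ∀ᶠ z in gen {y}, a z = b z) :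
    cn n a y = b y := by
  have e : ∃ b, Hol n b y ∧ ∀ᶠ z in gen {y}, a z = b z := ⟨b, hb, h⟩
  rw [cn, dif_pos e]
  exact eq_of_gen (hol_cont e.choose_spec.1) (hol_cont hb)
    ((e.choose_spec.2.and h).mono fun _ k => k.1.symm.trans k.2)

variable {n} in
theorem cn_eq [IsManifold 𝓘(ℂ, Cm n) ω Y] {a b : Y → ℂ} {y : Y} (hb : Hol n b y)
    (h : ∀ᶠ z in gen {y}, a z = b z) : ∀ᶠ z in 𝓝 y, cn n a z = b z := by
  filter_upwards [hb.near, gen_near h] with z h1 h2 using cn_at h1 h2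

variable {n} in
theorem cn_hol [IsManifold 𝓘(ℂ, Cm n) ω Y] {a b : Y → ℂ} {y : Y} (hb : Hol n b y)
    (h : ∀ᶠ z in gen {y}, a z = b z) : Hol n (cn n a) y :=
  hb.congr ((cn_eq hb h).mono fun _ => Eq.symm)

variable {n} in
theorem cn_gen [IsManifold 𝓘(ℂ, Cm n) ω Y] {a : Y → ℂ} {y : Y} (ha : Mer n a y) :
    ∀ᶠ z in gen {y}, cn n a z = a z :=
  (mer_gen_hol ha).mono fun _ ⟨_, h1, h2⟩ =>
    (cn_at h1 (gen_of_nhds h2)).trans h2.self_of_nhds.symm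

/-- `π` is proper over the open set `O` and an isomorphism outside the closed set `Z`. -/
structure Bl (π : Y → W) (O Z : Set W) : Prop where
  cont : Continuous π
  isOpen : IsOpen O
  closed : IsClosed Z
  maps : ∀ y, π y ∈ O
  proper : ∀ L ⊆ O, IsCompact L → IsCompact (π ⁻¹' L)
  surj : ∀ z ∈ O, z ∉ Z → ∃ y, π y = z
  dense : Dense {y | π y ∉ Z}
  hol : ∀ y g, Hol n g (π y) → Hol n (fun z => g (π z)) y
  one : ∀ y y', π y ∉ Z → π y' = π y → y' = y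
  sec : ∀ y, π y ∉ Z → ∃ σ : W → Y, ContinuousAt σ (π y) ∧ σ (π y) = y ∧
    (∀ᶠ z in 𝓝 (π y), π (σ z) = z) ∧ ∀ a, Hol n a y → Hol n (fun z => a (σ z)) (π y)

/-- `Z` is contained in a hypersurface near `x`. -/
def Thin (Z : Set W) (x : W) : Prop :=
  ∃ τ, Hol n τ x ∧ Nz τ x ∧ ∀ᶠ w in 𝓝 x, w ∈ Z → τ w = 0

/-- The sets `G l` are coordinate hyperplanes in the preferred charts. -/
structure Sn {r : ℕ} (G : Fin r → Set Y) (lab : Y → Fin r → Option (Fin n)) : Prop where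
  inj : ∀ y l l' i, lab y l = some i → lab y l' = some i → l = l'
  snc : ∀ y l, ∀ y' ∈ (chartAt (Cm n) y).source,
    y' ∈ G l ↔ ∃ i, lab y l = some i ∧ chartAt (Cm n) y y' i = 0

variable {n} in
/-- The equation of `G l` in the chart at `y`. -/
def zt {r : ℕ} (lab : Y → Fin r → Option (Fin n)) (l : Fin r) (y z : Y) : ℂ :=
  (lab y l).elim 1 fun i => chartAt (Cm n) y z i

variable {n} in
/-- The line bundle of `G l`. -/
def og {r : ℕ} (lab : Y → Fin r → Option (Fin n)) (l : Fin r) : Bd Y where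
  ι := Y
  U y := (chartAt (Cm n) y).source
  g y y' := cn n fun z => zt lab l y z / zt lab l y' z

variable {n} in
/-- `og lab l` is a line bundle with the section `zt lab l`. -/
structure Og {r : ℕ} (lab : Y → Fin r → Option (Fin n)) (l : Fin r) : Prop where
  hol : ∀ a, ∀ z ∈ (og lab l).U a, Hol n (zt lab l a) z
  nz : ∀ a, ∀ z ∈ (og lab l).U a, Nz (zt lab l a) z
  holo : ∀ a b z, z ∈ (og lab l).U a → z ∈ (og lab l).U b → Hol n ((og lab l).g a b) z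
  ne_zero : ∀ a b z, z ∈ (og lab l).U a → z ∈ (og lab l).U b → (og lab l).g a b z ≠ 0
  chg : ∀ a b z, z ∈ (og lab l).U a → z ∈ (og lab l).U b →
    zt lab l a z = (og lab l).g a b z * zt lab l b z
  cocycle : ∀ a b c z, z ∈ (og lab l).U a → z ∈ (og lab l).U b → z ∈ (og lab l).U c →
    (og lab l).g a b z * (og lab l).g b c z = (og lab l).g a c z

variable {n} in
/-- The positivity of `-∑ c l G l` at `y` (the field `pos` of `Hir.Out`). -/
def PosF (π : Y → W) {r : ℕ} (G : Fin r → Set Y) (lab : Y → Fin r → Option (Fin n))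
    (c : Fin r → ℚ) (v : Y → ℝ) (y : Y) : Prop :=
  ∃ (m : ℕ) (g : Fin m → W → ℂ) (ε : ℝ) (U : Set (Cm n)) (h : Cm n → ℝ),
    (∀ i, Hol n (g i) (π y)) ∧ 0 < ε ∧ IsOpen U ∧ chartAt (Cm n) y y ∈ U ∧ ContinuousOn h U ∧
    Psh (fun z => h z - ε * ∑ i, ‖z i‖ ^ 2) U ∧
    ∀ᶠ y' in 𝓝 y, (∀ l, y' ∉ G l) → h (chartAt (Cm n) y y') = v y' + ∑ i, ‖g i (π y')‖ ^ 2 -
      2 * ∑ l, (c l : ℝ) * (lab y l).elim 0 fun i => Real.log ‖chartAt (Cm n) y y' i‖

variable {n} in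
/-- The dual of `L` has a section over `π ⁻¹' V` which is not zero on any open set. -/
def Triv (π : Y → W) (L : Bd Y) (x : W) : Prop :=
  ∃ V ∈ 𝓝 x, ∃ ζ : L.ι → Y → ℂ, ∀ a z, z ∈ L.U a → π z ∈ V → Hol n (ζ a) z ∧ Nz (ζ a) z ∧
    ∀ b, z ∈ L.U b → ζ a z * L.g a b z = ζ b z

end defs

/-- A statement for all manifolds. -/
def All1 (P : ∀ (n : ℕ) (Y : Type) [TopologicalSpace Y] [ChartedSpace (Cm n) Y], Prop) : Prop :=
  ∀ (n : ℕ) (Y : Type) [TopologicalSpace Y] [T2Space Y] [ChartedSpace (Cm n) Y]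
    [IsManifold 𝓘(ℂ, Cm n) ω Y], P n Y

/-- A statement for all pairs of manifolds. -/
def All2 (P : ∀ (n : ℕ) (Y W : Type) [TopologicalSpace Y] [ChartedSpace (Cm n) Y]
    [TopologicalSpace W] [ChartedSpace (Cm n) W], Prop) : Prop :=
  ∀ (n : ℕ) (Y W : Type) [TopologicalSpace Y] [T2Space Y] [ChartedSpace (Cm n) Y]
    [IsManifold 𝓘(ℂ, Cm n) ω Y] [TopologicalSpace W] [T2Space W] [ChartedSpace (Cm n) W]
    [IsManifold 𝓘(ℂ, Cm n) ω W], P n Y W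

/-- **PRIN**: a family which is comparable with a monomial generates a principal ideal -/
def PRIN : Prop := ∀ (n r : ℕ) (κ : Type) [Fintype κ] (a : κ → Cm n → ℂ) (z₀ : Cm n)
  (lab : Fin r → Option (Fin n)) (ex : Fin r → ℝ),
  (∀ l l' i, lab l = some i → lab l' = some i → l = l') → (∀ l, 0 ≤ ex l) →
  (∀ k, AnalyticAt ℂ (a k) z₀) →
  Cpb (𝓝 z₀) (fun z => ∑ k, ‖a k z‖) (fun z => ∏ l, (lab l).elim 1 fun i => ‖z i‖ ^ ex l) →
  ∃ k₀, ∀ k, ∃ c : Cm n → ℂ, AnalyticAt ℂ c z₀ ∧ ∀ᶠ z in 𝓝 z₀, a k z = c z * a k₀ z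

/-- **DESC**: holomorphic functions descend -/
def DESC : Prop := All2 fun n Y W _ _ _ _ => ∀ (π : Y → W) (O Z : Set W), Bl n π O Z →
  ∀ x ∈ O, Thin n Z x → ∀ β : Y → ℂ, (∀ y, π y = x → Hol n β y) →
  ∃ b, Hol n b x ∧ ∀ᶠ w in 𝓝 x, ∀ y, π y = w → β y = b w

/-- **TOP**: topology of a modification -/
def TOP : Prop := All2 fun n Y W _ _ _ _ => ∀ (π : Y → W) (O Z : Set W), Bl n π O Z →
  (∀ y, Tendsto π (gen {y}) (gen {π y})) ∧
  (∀ x ∈ O, ∀ p : Y → Prop, (∀ y, π y = x → ∀ᶠ z in 𝓝 y, p z) → ∀ᶠ w in 𝓝 x, ∀ y, π y = w → p y) ∧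
  ∀ F ⊆ O, IsCompact F → IsConnected F → (∀ x ∈ F, Thin n Z x) →
    IsConnected (π ⁻¹' F) ∧ π '' (π ⁻¹' F) = F

/-- **OG** -/
def OG : Prop := All1 fun n Y _ _ => ∀ (r : ℕ) (G : Fin r → Set Y)
  (lab : Y → Fin r → Option (Fin n)), Sn n G lab → ∀ l, Og lab l

/-- **POSB**: the modification is projective -/
def POSB : Prop := ∀ (n N : ℕ) (G' G : Geo n N) (π : G'.W → G.W) (A : Bd G.W) (r : ℕ)
  (E : Fin r → Set G'.W) (lab : G'.W → Fin r → Option (Fin n)) (c : Fin r → ℚ) (v : G'.W → ℝ),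
  Continuous π → (∀ y g, Hol n g (π y) → Hol n (fun z => g (π z)) y) → (∀ y ∈ G'.F, π y ∈ G.F) →
  G.PosB A → Sn n E lab → (∀ l, Og lab l) → (∀ l, 0 < c l) → (∀ y ∈ G'.F, PosF π E lab c v y) →
  ∃ L : Bd G'.W, G'.PosB L ∧ ∀ x ∈ G.F, Triv (n := n) π L x

/-- **DEN**: the denominators of a meromorphic function define a line bundle (`L` is its dual) -/
def DEN : Prop := ∀ (n N : ℕ) (G : Geo n N) (a : G.W → ℂ), (∀ x ∈ G.F, Mer n a x) →
  ∃ (L : Bd G.W) (u v : L.ι → G.W → ℂ), G.LB L ∧ ∀ i, ∀ z ∈ L.U i, Hol n (u i) z ∧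
    Hol n (v i) z ∧ Nz (v i) z ∧ (∀ᶠ w in gen {z}, a w * v i w = u i w) ∧
    ∀ j, z ∈ L.U j → u i z * L.g i j z = u j z ∧ v i z * L.g i j z = v j z

/-- **SURJ**: meromorphic functions descend -/
def SURJ : Prop := ∀ (n N : ℕ) (G' G : Geo n N) (π : G'.W → G.W) (O Z : Set G.W) (L : Bd G'.W),
  Bl n π O Z → G.F ⊆ O → G'.F = π ⁻¹' G.F → (∀ x ∈ G.F, Thin n Z x) → G'.PosB L →
  (∀ x ∈ G.F, Triv (n := n) π L x) → ∀ a : G'.W → ℂ, (∀ y ∈ G'.F, Mer n a y) →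
  ∃ a' : G.W → ℂ, (∀ x ∈ G.F, Mer n a' x) ∧ ∀ y, π y ∉ Z → a y = a' (π y)

/-- **KCO**: coordinates in the function field which are adapted to the divisors `E l` -/
def KCO (n : ℕ) : Prop := ForM n fun _ _ _ _ M => ∀ (r : ℕ) (E : Fin r → Set M.W)
  (lab : M.W → Fin r → Option (Fin n)), Sn n E lab → (∀ l, Og lab l) → ∀ y : M.F,
  ∃ t, M.Coord y t ∧ ∀ P p, M.Gn y P p →
    (∀ᶠ z in 𝓝 (y : M.W), M.val p z = 0 → ∃ l, z ∈ E l) → ∃ i, M.Gn y P (t i)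

/-- The common zero set of the equation of a prime divisor and of a function that does not vanish
on it contains no hypersurface (the statement of `Bir/Defs`). -/
def CopH {n N : ℕ} {K : Type} [Field K] [Algebra ℂ K] (M : Mdl n N K) : Prop :=
  ∀ x P t, M.Gn x P t → ∀ b ∈ M.O x, b ≠ 0 → P.ord b = 0 →
    ∀ᶠ w in 𝓝 (x : M.W), ∀ c : M.W → ℂ, Hol n c w → c w = 0 →
      ¬ ∀ᶠ w' in 𝓝 w, c w' = 0 → M.val t w' = 0 ∧ M.val b w' = 0

/-- **EXC**: exceptional prime divisors lie over `Z` -/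
def EXC : Prop := ∀ (n N : ℕ) (K : Type) [Field K] [Algebra ℂ K] (M' M : Mdl n N K)
  (m : Mod M' M) (O Z : Set M.W), Bl n m.g O Z → Loc M → CopH M → ∀ (y : M'.F) P p,
  M'.Gn y P p → ¬ M.Pr P → ∀ᶠ z in 𝓝 (y : M'.W), M'.val p z = 0 → m.g z ∈ Z

end Vale.Agent.P277Z.Hl
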