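import Vale.Agent.P277Z.Hl.Main
import Vale.Agent.P277Z.Hl.Posb
import Vale.Agent.P277Z.Lo.All

/-!
# P277Z, block HIRL
-/

namespace Vale.Agent.P277Z

theorem hirl {n : ℕ} (hH : Hir.StMain) (hG : GGF) (hJ : JET) (hS : SEC n) (hB : LBD n) : HIRL n :=
  Hl.hirl_of hH Hl.posb hG (loc hJ n) (cop hJ n) hS hB

end Vale.Agent.P277Z
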