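import Vale.Agent.P277Z.Hl.Defs

/-!
# P277Z, block HIRL: meromorphic functions descend
-/

open scoped Manifold ContDiff Topology
open Set Filter
open Vale.Agent.P272.K (Cm Chart At)
open Vale.Agent.P285.H281.FD (Bd)

noncomputable section

namespace Vale.Agent.P277Z.Hl

open Lo

namespace SurjAux

theorem exists_glue {Y ι : Type} (U : ι → Set Y) (c : ι → Y → ℂ) : ∃ b : Y → ℂ, ∀ z,
    (∀ p q, z ∈ U p → z ∈ U q → c p z = c q z) → ∀ p, z ∈ U p → b z = c p z := by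
  classical
  refine ⟨fun z => if h : ∃ p, z ∈ U p then c h.choose z else 0, fun z h p hp => ?_⟩
  have e : ∃ p, z ∈ U p := ⟨p, hp⟩
  beta_reduce
  rw [dif_pos e]
  exact h _ _ e.choose_spec hp

variable {n N : ℕ}

/-- the product of a section of the dual of `D`, of a section of `D + m L` and of the `m`-th power of
a section of the dual of `L` is a function -/
theorem exists_fn {G' : Geo n N} {W : Type} [TopologicalSpace W] {π : G'.W → W} (hπ : Continuous π)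
    {D L : Bd G'.W} (hD : G'.LB D) (hL : G'.LB L) {m : ℕ} {s : (D.mul (L.pow m)).ι → G'.W → ℂ}
    (hs : G'.Sec (D.mul (L.pow m)) s) {x : W} {V : Set W} (hV : V ∈ 𝓝 x) {ζ : L.ι → G'.W → ℂ}
    (hζ : ∀ a z, z ∈ L.U a → π z ∈ V → ∀ b, z ∈ L.U b → ζ a z * L.g a b z = ζ b z)
    {w : D.ι → G'.W → ℂ} (hw : ∀ i, ∀ z ∈ D.U i, ∀ j, z ∈ D.U j → w i z * D.g i j z = w j z) :
    ∃ b : G'.W → ℂ, ∀ y ∈ G'.F, π y = x → ∀ i a, y ∈ D.U i → y ∈ L.U a →
      ∀ᶠ z in 𝓝 y, w i z * s (i, a) z * ζ a z ^ m = b z := by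
  obtain ⟨b, hb⟩ := exists_glue (D.mul (L.pow m)).U fun p z => w p.1 z * s p z * ζ p.2 z ^ m
  refine ⟨b, fun y hy hx i a hi ha => ?_⟩
  filter_upwards [hs.filter_mono (nhds_le_nhdsSet hy), hπ.continuousAt.eventually (hx ▸ hV),
    (hD.isOpen i).mem_nhds hi, (hL.isOpen a).mem_nhds ha] with z h1 h2 h3 h4
  refine (hb z (fun p q hp hq => ?_) (i, a) ⟨h3, h4⟩).symm
  have e : s p z = D.g p.1 q.1 z * L.g p.2 q.2 z ^ m * s q z := (h1 p hp).2 q hq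
  rw [e, ← hw p.1 z hp.1 q.1 hq.1, ← hζ p.2 z hp.2 h2 q.2 hq.2]
  ring

/-- a generic identity descends at the points off `Z` -/
theorem desc_loc {Y W : Type} [TopologicalSpace Y] [ChartedSpace (Cm n) Y] [TopologicalSpace W]
    [ChartedSpace (Cm n) W] {π : Y → W} {O Z : Set W} (h : Bl n π O Z) {T : Y → Prop}
    {P : W → Prop} {y : Y} (hy : π y ∉ Z) (hT : ∀ᶠ z in gen {y}, T z)
    (hP : ∀ᶠ w in 𝓝 (π y), ∀ z, π z = w → w ∉ Z → T z → P w) :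
    ∃ᶠ w in 𝓝 (π y), ∀ᶠ w' in 𝓝 w, P w' := by
  have hZ : ∀ᶠ w in 𝓝 (π y), w ∉ Z := h.closed.isOpen_compl.mem_nhds hy
  refine Tendsto.frequently h.cont.continuousAt (((gen_freq hT).and_eventually
    (h.cont.continuousAt.eventually (hP.and hZ).eventually_nhds)).mono fun z hz => ?_)
  obtain ⟨σ, h1, h2, h3, -⟩ := h.sec z hz.2.self_of_nhds.2
  filter_upwards [h1.eventually (h2.symm ▸ hz.1), h3, hz.2] with w k1 k2 k3
  exact k3.1 _ k2 k3.2 k1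

end SurjAux

open SurjAux in
theorem surj_of (hG : GGF) (hD : DEN) (h1 : DESC) (h2 : TOP) : SURJ := by
  intro n N G' G π O Z L hB hO hF hT hL hζ a ha
  classical
  obtain ⟨-, T2, T3⟩ := h2 n G'.W G.W π O Z hB
  set a' : G.W → ℂ := fun w => if h : ∃ y, π y = w then a h.choose else 0 with ha'
  have hlast : ∀ y, π y ∉ Z → a y = a' (π y) := fun y hy => by
    have e : ∃ y', π y' = π y := ⟨y, rfl⟩
    rw [ha']
    beta_reduce
    rw [dif_pos e, hB.one y _ hy e.choose_spec]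
  refine ⟨a', fun x hx => ?_, hlast⟩
  obtain ⟨y₀, -, hy₀⟩ : x ∈ π '' (π ⁻¹' G.F) := (T3 G.F hO G.cpt G.conn hT).2.symm ▸ hx
  have hmem : ∀ y, π y = x → y ∈ G'.F := fun y hy => by
    rw [hF, mem_preimage, hy]
    exact hx
  have hLB : G'.LB L := hL.choose_spec.1
  obtain ⟨D, u, v, hDB, huv⟩ := hD n N G' a ha
  obtain ⟨m, hm⟩ := hG n N G' L D hL hDB
  obtain ⟨s, hs, hs0⟩ := hm m le_rfl y₀ (hmem y₀ hy₀)
  obtain ⟨V, hV, ζ, hz⟩ := hζ x hx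
  have hVy : ∀ y, π y = x → π y ∈ V := fun y hy => hy ▸ mem_of_mem_nhds hV
  obtain ⟨bu, hbu⟩ := exists_fn hB.cont hDB hLB hs hV (fun a z k1 k2 => (hz a z k1 k2).2.2)
    (w := u) fun i z k1 j k2 => ((huv i z k1).2.2.2.2 j k2).1
  obtain ⟨bv, hbv⟩ := exists_fn hB.cont hDB hLB hs hV (fun a z k1 k2 => (hz a z k1 k2).2.2)
    (w := v) fun i z k1 j k2 => ((huv i z k1).2.2.2.2 j k2).2
  have key : ∀ y, π y = x → Hol n bu y ∧ Hol n bv y ∧ ∀ᶠ z in gen {y}, a z * bv z = bu z := by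
    intro y hy
    obtain ⟨i, hi⟩ := hDB.cover y (hmem y hy)
    obtain ⟨c, hc⟩ := hLB.cover y (hmem y hy)
    have k1 : Hol n (s (i, c)) y := (hs.self_of_nhdsSet y (hmem y hy) (i, c) ⟨hi, hc⟩).1
    have k2 := hol_pow (hz c y hc (hVy y hy)).1 m
    obtain ⟨k3, k4, -, k5, -⟩ := huv i y hi
    have k6 := hbu y (hmem y hy) hy i c hi hc
    have k7 := hbv y (hmem y hy) hy i c hi hc
    refine ⟨(hol_mul (hol_mul k3 k1) k2).congr k6, (hol_mul (hol_mul k4 k1) k2).congr k7, ?_⟩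
    filter_upwards [k5, gen_of_nhds k6, gen_of_nhds k7] with z l1 l2 l3
    rw [← l2, ← l3, ← l1]
    ring
  obtain ⟨Bu, u1, u2⟩ := h1 n G'.W G.W π O Z hB x (hO hx) (hT x hx) bu fun y hy => (key y hy).1
  obtain ⟨Bv, v1, v2⟩ := h1 n G'.W G.W π O Z hB x (hO hx) (hT x hx) bv fun y hy => (key y hy).2.1
  refine ⟨Bu, Bv, u1, v1, fun h0 => ?_, gen_of_freq ?_⟩
  · obtain ⟨i, hi⟩ := hDB.cover y₀ (hmem y₀ hy₀)
    obtain ⟨c, hc⟩ := hLB.cover y₀ (hmem y₀ hy₀)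
    have k1 : Hol n (s (i, c)) y₀ := (hs.self_of_nhdsSet y₀ (hmem y₀ hy₀) (i, c) ⟨hi, hc⟩).1
    obtain ⟨k2, k3, -⟩ := hz c y₀ hc (hVy y₀ hy₀)
    obtain ⟨-, k4, k5, -⟩ := huv i y₀ hi
    have k6 : ∀ᶠ z in 𝓝 y₀, Bv (π z) = 0 ∧ ∀ y, π y = π z → bv y = Bv (π z) :=
      hB.cont.continuousAt.eventually (p := fun w => Bv w = 0 ∧ ∀ y, π y = w → bv y = Bv w)
        (hy₀ ▸ h0.and v2)
    obtain ⟨z, ⟨⟨l1, l2⟩, l3⟩, l4, l5⟩ := ((((hol_gen_ne k4 k5).and (hol_gen_ne k2 k3)).and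
      (gen_of_nhds (hol_ne k1 (hs0 (i, c) ⟨hi, hc⟩)))).and
        (gen_of_nhds ((hbv y₀ (hmem y₀ hy₀) hy₀ i c hi hc).and k6))).exists
    rw [l5.2 z rfl, l5.1] at l4
    exact mul_ne_zero (mul_ne_zero l1 l3) (pow_ne_zero m l2) l4
  · obtain ⟨τ, t1, t2, t3⟩ := hT x hx
    have k1 : ∀ᶠ w in gen {x}, w ∉ Z := by
      filter_upwards [hol_gen_ne t1 t2, gen_of_nhds t3] with w l1 l2 l3 using l1 (l2 l3)
    have k2 := T2 x (hO hx) _ fun y hy => gen_near (key y hy).2.2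
    filter_upwards [gen_near k1, (k2.and ((u2.and v2).eventually_nhds.and
      (hB.isOpen.eventually_mem (hO hx)))).eventually_nhds] with w l1 l2
    refine frequently_frequently_nhds.1 (((gen_freq' l1).and_eventually l2).mono fun w' l3 => ?_)
    obtain ⟨y, rfl⟩ := hB.surj w' l3.2.2.2 l3.1
    refine desc_loc hB l3.1 (l3.2.1 y rfl) (l3.2.2.1.mono ?_)
    rintro _ l4 z rfl l5 l6
    rw [← hlast z l5, ← l4.1 z rfl, ← l4.2 z rfl]
    exact l6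

end Vale.Agent.P277Z.Hl
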