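import Vale.Agent.P277Z.Hl.Desc
import Vale.Agent.P277Z.Hl.Surj
import Vale.Agent.P277Z.Hl.Og

/-!
# P277Z, block HIRL: the model which is defined by a proper modification
-/

set_option linter.all false

open scoped Manifold ContDiff Topology
open Set Filter
open Vale.Agent.P272.K (Cm Chart At cHess)
open Vale.Agent.P285.H281.FD (Bd)

noncomputable section

namespace Vale.Agent.P277Z.Hl

open Lo

variable {n N : ℕ}

/-- A proper modification of `G`. -/
structure Up (G : Geo n N) where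
  Y : Type
  [top : TopologicalSpace Y]
  [t2 : T2Space Y]
  [sc : SecondCountableTopology Y]
  [cs : ChartedSpace (Cm n) Y]
  [mf : IsManifold 𝓘(ℂ, Cm n) ω Y]
  π : Y → G.W
  O : Set G.W
  Z : Set G.W
  bl : Bl n π O Z
  sub : G.F ⊆ O
  thin : ∀ x ∈ G.F, Thin n Z x

attribute [instance] Up.top Up.t2 Up.sc Up.cs Up.mf

namespace Up

section geo

variable {G : Geo n N} (u : Up G)

theorem dom (y : u.Y) : Tendsto u.π (gen {y}) (gen {u.π y}) :=
  (Hl.top n u.Y G.W u.π u.O u.Z u.bl).1 y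

theorem img : u.π '' (u.π ⁻¹' G.F) = G.F :=
  ((Hl.top n u.Y G.W u.π u.O u.Z u.bl).2.2 G.F u.sub G.cpt G.conn u.thin).2

theorem nhdsSet : Tendsto u.π (𝓝ˢ (u.π ⁻¹' G.F)) (𝓝ˢ G.F) :=
  u.bl.cont.tendsto_nhdsSet (mapsTo_preimage _ _)

theorem genF : Tendsto u.π (gen (u.π ⁻¹' G.F)) (gen G.F) := fun _ h =>
  Lo.gen_iff.2 fun y hy => u.dom y (Lo.gen_iff.1 h _ hy)

theorem mer {a : G.W → ℂ} {y : u.Y} (h : Mer n a (u.π y)) : Mer n (fun z => a (u.π z)) y := by
  obtain ⟨v, w, h1, h2, h3, h4⟩ := h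
  have k1 := (u.dom y).eventually (Lo.hol_gen_ne h2 h3)
  have k2 := (u.dom y).eventually h4
  refine ⟨fun z => v (u.π z), fun z => w (u.π z), u.bl.hol y v h1, u.bl.hol y w h2, fun h => ?_, k2⟩
  exact ((gen_freq' k1).and_eventually h).exists.elim fun _ k => k.1 k.2

theorem off (y : u.Y) : ∀ᶠ z in gen {y}, u.π z ∉ u.Z :=
  ⟨univ, isOpen_univ, subset_univ _, fun z _ => by
    have h : IsOpen {z | u.π z ∉ u.Z} := u.bl.closed.isOpen_compl.preimage u.bl.cont
    change z ∈ closure (interior {z | u.π z ∉ u.Z})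
    rw [h.interior_eq]
    exact u.bl.dense z⟩

/-- The modification as a germ along the preimage of the fibre. -/
abbrev geo : Geo n N where
  W := u.Y
  F := u.π ⁻¹' G.F
  cpt := u.bl.proper _ u.sub G.cpt
  conn := ((Hl.top n u.Y G.W u.π u.O u.Z u.bl).2.2 G.F u.sub G.cpt G.conn u.thin).1
  π y := G.π (u.π y)
  hol y hy i := u.bl.hol y (fun x => G.π x i) (G.hol _ hy i)
  fib := u.nhdsSet.eventually G.fib

/-- Meromorphic functions descend. -/
def Dn : Prop := ∀ a : u.Y → ℂ, (∀ y ∈ u.π ⁻¹' G.F, Mer n a y) →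
  ∃ a' : G.W → ℂ, (∀ x ∈ G.F, Mer n a' x) ∧ ∀ y, u.π y ∉ u.Z → a y = a' (u.π y)

theorem dn (hG : GGF) {L : Bd u.Y} (h : u.geo.PosB L) (h' : ∀ x ∈ G.F, Triv (n := n) u.π L x) :
    u.Dn :=
  surj_of hG den desc Hl.top n N u.geo G u.π u.O u.Z L u.bl u.sub rfl u.thin h h'

end geo

variable {K : Type} [Field K] [Algebra ℂ K] {M : Mdl n N K} (u : Up M.toGeo)

theorem val_gen (f : K) :
    ∀ᶠ y in gen (u.π ⁻¹' M.F), cn n (fun z => M.val f (u.π z)) y = M.val f (u.π y) :=
  Lo.gen_iff.2 fun _ hy => cn_gen (u.mer (M.mer f _ hy))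

/-- The modification as a model. -/
abbrev mdl (h : u.Dn) : Mdl n N K where
  toGeo := u.geo
  val f := cn n fun z => M.val f (u.π z)
  val_add f g := by
    filter_upwards [u.val_gen f, u.val_gen g, u.val_gen (f + g),
      u.genF.eventually (M.val_add f g)] with y a b c d
    rw [a, b, c, d]
  val_mul f g := by
    filter_upwards [u.val_gen f, u.val_gen g, u.val_gen (f * g),
      u.genF.eventually (M.val_mul f g)] with y a b c d
    rw [a, b, c, d]
  val_const c y := cn_at (Lo.hol_const c) (.of_forall fun _ => M.val_const c _)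
  mer f y hy := mer_congr (u.mer (M.mer f _ hy))
    ((Lo.gen_iff.1 (u.val_gen f) y hy).mono fun _ => Eq.symm)
  can f := (gen_nhdsSet (u.val_gen f)).mono fun y hy a ha h =>
    cn_at ha ((hy.and h).mono fun _ k => k.1.symm.trans k.2)
  surj a ha := by
    obtain ⟨a', h1, h2⟩ := h a ha
    obtain ⟨f, hf⟩ := M.surj a' h1
    refine ⟨f, ?_⟩
    filter_upwards [u.val_gen f, u.genF.eventually hf, Lo.gen_iff.2 fun y _ => u.off y]
      with y a b c
    rw [a, b, h2 y c]

/-- The modification of models. -/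
abbrev mod (h : u.Dn) : Mod (u.mdl h) M where
  g := u.π
  cont _ _ := u.bl.cont.continuousAt
  hol y _ := u.bl.hol y
  img := u.img
  dom y _ := u.dom y
  base := .of_forall fun _ => rfl
  val := u.val_gen

end Up

end Vale.Agent.P277Z.Hl
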